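import Vale.Agent.P167.H436.SP.F

/-!
# P167, general `q`, (BETA) (1): the power law in windows of scales
-/

namespace Vale.Agent.P167.H436.SP

open Set Metric Filter Topology MeasureTheory Vale.Agent.P167 Vale.Agent.P167.H436.ND
open Vale.Agent.P167.FK
open Vale.Agent.P153.R2.R1
open Vale.Agent.P167.BR (sites Flt hbox)
open Vale.Agent.P167.BVP (Flat Test)
open Vale.Agent.P167.CA (Dat cms fs)
open Vale.Agent.P167.H411.B7 (Shp scb)
open Vale.Agent.P167.H411.Q (fb VN BdA hQ fb_bp)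
open Vale.Agent.P167.H135 (Mov)
open Vale.Agent.P167.H519 (IsLim)
open Vale.Agent.P167.H640.ND (nor Mq poly_mov enc_mov dob_mov Ex_XG_mov)
open Vale.Agent.P167.H718 (Dob Chordless etaW mem_opW)
open Vale.Agent.P167.E6 (IsPolygon Encloses)
open Vale.Agent.P167.QB (gB XG)
open Vale.Agent.P167.H542.Q (BD)
open Vale.Agent.P167.H452.BE (ta XE R3)

theorem top_le {T ρ η₀ r n A : ℝ} (hT : 0 ≤ T) (h1 : T * ρ ≤ η₀) (h2 : η₀ ≤ r / 64)
    (hA : A ≤ ρ * n / 2) (hn : 0 ≤ n) : T * A ≤ r * n / 128 := by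
  have h3 := mul_le_mul_of_nonneg_left hA hT
  have h4 := mul_le_mul_of_nonneg_right (h1.trans h2) hn
  have e : T * (ρ * n / 2) = T * ρ * n / 2 := by ring
  rw [e] at h3
  linarith

theorem fin_real {V Nn E e lρ lM θ B₁ B₂ : ℝ} {k : ℕ} (hV : 0 < V)
    (v1 : |Real.log (V * Real.exp (θ * Nn)) - (e * lρ - k * (e * lM))| ≤ B₁)
    (hex : |E - θ * Nn| ≤ B₂) :
    Real.exp (e * lρ - B₁ - B₂) * Real.exp (-(e * lM)) ^ k ≤ V * Real.exp E ∧
      V * Real.exp E ≤ Real.exp (e * lρ + B₁ + B₂) * Real.exp (-(e * lM)) ^ k := by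
  rw [Real.log_mul hV.ne' (Real.exp_pos _).ne', Real.log_exp] at v1
  have e2 : V * Real.exp E = Real.exp (Real.log V + E) := by
    rw [Real.exp_add, Real.exp_log hV]
  rw [e2, ← Real.exp_nat_mul, ← Real.exp_add, ← Real.exp_add]
  rw [abs_le] at v1 hex
  constructor
  · refine Real.exp_le_exp.2 ?_
    linarith [v1.1, v1.2, hex.1, hex.2]
  · refine Real.exp_le_exp.2 ?_
    linarith [v1.1, v1.2, hex.1, hex.2]

/-- The rings. -/
theorem rings {M K L r' R a0 : ℤ} {k : ℕ} {η ρ x η₀ r n : ℝ} (hK : 4 ≤ K)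
    (hx : x = 1 / ((K : ℝ) + 1)) (hn : 0 ≤ n) (hm2 : (K : ℝ) ≤ (M : ℝ) ^ k) (hr' : 1 ≤ r')
    (ha0 : a0 = ⌊η * x * n / 2⌋) (h99 : 99 ≤ a0) (hfl1 : ⌊η * n / 2⌋ = r')
    (hfl2 : ⌊ρ * n / 2⌋ = M ^ k * r') (hKρ : (K : ℝ) * ρ ≤ η₀) (hLρ : |(L : ℝ)| * ρ ≤ η₀)
    (h64 : η₀ ≤ r / 64) (hR : r * n / 4 - 11 ≤ R) (hrn : 200 ≤ r * n) :
    R3 1 K R ![a0, r', M ^ k * r'] ∧ r' ≤ 2 * K * a0 ∧ L * (M ^ k * r') ≤ R := by
  have hKr : (4 : ℝ) ≤ K := by exact_mod_cast hK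
  have b0 := Int.floor_le (η * x * n / 2)
  have b0' := Int.lt_floor_add_one (η * x * n / 2)
  have b1 := Int.floor_le (η * n / 2)
  have b1' := Int.lt_floor_add_one (η * n / 2)
  have b2 := Int.floor_le (ρ * n / 2)
  rw [← ha0] at b0 b0'
  rw [hfl1] at b1 b1'
  rw [hfl2] at b2
  have hxK : η * n / 2 = (K + 1) * (η * x * n / 2) := by
    rw [hx]; field_simp
  have hA : (99 : ℝ) ≤ a0 := by exact_mod_cast h99
  have hr0 : (1 : ℝ) ≤ r' := by exact_mod_cast hr'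
  have hpos : (0 : ℝ) ≤ ((M ^ k * r' : ℤ) : ℝ) := by
    push_cast
    have : (0 : ℝ) ≤ (M : ℝ) ^ k := by linarith
    positivity
  refine ⟨⟨by show 1 ≤ a0; omega, ?_, ?_, ?_⟩, ?_, ?_⟩
  · show K * a0 ≤ r'
    have h2 : (K : ℝ) * a0 ≤ K * (η * x * n / 2) := mul_le_mul_of_nonneg_left b0 (by linarith)
    have : (K : ℝ) * a0 < r' + 1 := by linarith
    have h3 : K * a0 < r' + 1 := by exact_mod_cast this
    omega
  · show K * r' ≤ M ^ k * r'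
    have h3 : K ≤ M ^ k := by exact_mod_cast hm2
    exact mul_le_mul_of_nonneg_right h3 (by omega)
  · show K * (M ^ k * r') ≤ R
    have h3 := top_le (by linarith : (0 : ℝ) ≤ K) hKρ h64 b2 hn
    have h4 : (K : ℝ) * ((M ^ k * r' : ℤ) : ℝ) ≤ R := by linarith
    exact_mod_cast h4
  · have h2 : (K + 1 : ℝ) * (η * x * n / 2) ≤ (K + 1) * (a0 + 1) :=
      mul_le_mul_of_nonneg_left b0'.le (by linarith)
    have h3 : (r' : ℝ) ≤ 2 * K * a0 := by nlinarith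
    exact_mod_cast h3
  · have h3 := top_le (abs_nonneg (L : ℝ)) hLρ h64 b2 hn
    have h5 := mul_le_mul_of_nonneg_right (le_abs_self (L : ℝ)) hpos
    have h4 : (L : ℝ) * ((M ^ k * r' : ℤ) : ℝ) ≤ R := by linarith
    exact_mod_cast h4

/-- The value. -/
theorem val_eq {S : Dat} {θ : ℝ} (h0 : 0 < θ) (h1 : θ ≤ Real.pi / 3) (hQ : 0 < 2 * Real.cos θ)
    (hβ : Real.cos (θ / 2 + gB θ) = Real.sin θ) {X : BD S θ (gB θ)} {c : ℂ} {i : Fin 4} {r : ℝ}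
    {R : ℤ} {n l : ℕ} (hF : Flat S.P c (nor i) r) {χ : ℂ → ℝ} (hχ : Sh0 χ) {η x ρ : ℝ} (hη : 0 < η)
    (hηr : η < r) (hx : 0 < x) (hx1 : x ≤ 1) (hρ : 0 < ρ) (hρr : ρ < r)
    (hc : Chordless (X.q n)) (hq : IsPolygon (X.q n)) (hd : Dob (X.η n) (S.D n) (X.q n) (X.k n))
    (hk : X.k n = X.N n) (hW : Win (Mq (mI i) (X.q n)) ((mI i).S (S.D n)) l R) :
    Ex (2 * Real.cos θ) ((mI i).S (S.D n)) eta0
        (XE θ (Mq (mI i) (X.q n)) ((mI i).S (S.D n))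
          (fun j => (mI i).F (f3 χ (nor i) c η x ρ n j))) =
      (X.famB h0 h1 hβ).V n (fun w => θ * (fb (ms 2 x χ) (nor i) c η w - fb χ (nor i) c ρ w)) := by
  unfold XE
  rw [hk] at hd
  rw [ex_mov hQ (mI i) hc hq hW.poly hW.enc hd, H542.Q.BD.famB_V,
    cms_f3 S hF hχ hη hηr hx hx1 hρ hρr, hk]
  rfl

/-- The bumps. -/
theorem bump3 (S : Dat) {c : ℂ} {r : ℝ} {i : Fin 4} (hF : Flat S.P c (nor i) r) {χ : ℂ → ℝ}
    (hχ : Sh1 χ) {η x ρ : ℝ} (hη : 0 < η) (hηr : η < r) (hx : 0 < x) (hx1 : x ≤ 1) (hρ : 0 < ρ)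
    (hρr : ρ < r) {n : ℕ} (hn : 0 < n) {b : ℤ × ℤ} (hb : NearB i b (fs n c)) {a : Fin 3 → ℤ}
    (ha0 : a 0 = ⌊η * x * n / 2⌋) (ha1 : a 1 = ⌊η * n / 2⌋) (ha2 : a 2 = ⌊ρ * n / 2⌋)
    (h50 : ∀ j, 50 ≤ a j) (j : Fin 3) :
    Bp 1000 ((mI i).t b) (a j) ((mI i).F (f3 χ (nor i) c η x ρ n j)) := by
  have hj : j = 0 ∨ j = 1 ∨ j = 2 := by fin_cases j <;> simp
  rcases hj with rfl | rfl | rfl
  · exact bp_fb S hF hχ.sh0 hχ.bd (by positivity)
      ((mul_le_of_le_one_right hη.le hx1).trans_lt hηr) hn hb ha0 (h50 0)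
  · exact bp_fb S hF hχ.sh0 hχ.bd hη hηr hn hb ha1 (h50 1)
  · exact bp_fb S hF hχ.sh0 hχ.bd hρ hρr hn hb ha2 (h50 2)

/-- **(BETA) (1)** from `CORE` of the free family of one polygon. -/
theorem powL_of {S : Dat} {θ : ℝ} {P : Measure Cfg} (h0 : 0 < θ) (h1 : θ ≤ Real.pi / 3)
    (hR : RSW (2 * Real.cos θ)) (hP : IsLim (2 * Real.cos θ) P)
    (hβ : Real.cos (θ / 2 + gB θ) = Real.sin θ) (hf : S_fre θ P) {X : BD S θ (gB θ)}
    (hXL : (atTop ⊓ 𝓟 {n : ℕ | 4 ∣ n}) ≤ X.L) (hcore : (X.famB h0 h1 hβ).CORE) {ψ : ℂ → ℂ} {c : ℂ}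
    (hU : IsU ψ S.P c S.bp) (hinj : InjOn ψ {z | 0 ≤ z.im}) {i : Fin 4} {r : ℝ} {l : ℕ → ℕ}
    (hX : Jn X c i r l) (hk : ∀ᶠ n in X.L, X.k n = X.N n) (hr : 0 < r)
    (hb : S.bp ∉ ball c r) : S_powL θ P := by
  have hπ := Real.pi_pos
  have hcos : 0 < Real.cos θ := Real.cos_pos_of_mem_Ioo ⟨by linarith, by linarith⟩
  have hQ : 0 < 2 * Real.cos θ := by linarith
  have hQ1 : 1 ≤ 2 * Real.cos θ := by
    have : Real.cos (Real.pi / 3) ≤ Real.cos θ :=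
      Real.cos_le_cos_of_nonneg_of_le_pi h0.le (by linarith) h1
    rw [Real.cos_pi_div_three] at this
    linarith
  obtain ⟨χ, hχ⟩ := exists_sh1
  obtain ⟨J, K', h₀, hJ, hK', hLv⟩ := exists_lv h0 h1 hβ hf hX hk hr hχ
  have hD : Dm (X.famB h0 h1 hβ) ψ c (nor i) r θ := ⟨hcore, hU, hinj, hX.flat, hb, h0⟩
  set F := X.famB h0 h1 hβ with hF
  have hFL : (atTop ⊓ 𝓟 {n : ℕ | 4 ∣ n}) ≤ F.L := hXL
  have hK'r : (4 : ℝ) ≤ K' := by exact_mod_cast hK'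
  set η₀ : ℝ := r / (16 * K') with hη₀
  have hη₀0 : 0 < η₀ := by positivity
  have hη₀r : η₀ < r := by
    rw [hη₀, div_lt_iff₀ (by positivity)]
    nlinarith
  set κ : ℝ := 1 / ((K' : ℝ) + 1) with hκ
  intro M hM
  refine ⟨4, fun K hK L => ?_⟩
  have hMr : (2 : ℝ) ≤ M := by exact_mod_cast hM
  have hKr : (4 : ℝ) ≤ K := by exact_mod_cast hK
  set x : ℝ := 1 / ((K : ℝ) + 1) with hx
  have hx0 : 0 < x := by positivity
  have hx1 : x ≤ 1 := by rw [hx, div_le_one (by positivity)]; linarith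
  set Λ : ℝ := |(L : ℝ)| + K + 1 with hΛ
  have hΛ1 : 1 ≤ Λ := by have := abs_nonneg (L : ℝ); linarith
  set ρ : ℝ := min (1 / 4) (η₀ / Λ) with hρ
  have hρ0 : 0 < ρ := lt_min (by norm_num) (by positivity)
  have hρ1 : ρ ≤ 1 / 4 := min_le_left _ _
  have hρη : ρ ≤ η₀ := (min_le_right _ _).trans (div_le_self hη₀0.le hΛ1)
  have hρΛ : Λ * ρ ≤ η₀ := by
    have : ρ ≤ η₀ / Λ := min_le_right _ _
    rw [le_div_iff₀ (by linarith)] at this
    linarith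
  have hρr : ρ < r := hρη.trans_lt hη₀r
  have h64 : η₀ ≤ r / 64 := by
    rw [hη₀, div_le_div_iff₀ (by positivity) (by norm_num)]
    nlinarith
  have h₂ := fb_bp hχ.sh0.shp hX.flat hρ0 hρr
  obtain ⟨B₁, η₁, hη₁, g₁⟩ := pow_two hD hLv hχ hχ.bd (J' := 2) (by norm_num) hx0 hx1 h₂.test h₂.mass
  obtain ⟨B₂, hB₂, g₂⟩ := ex0_cmp hQ1 hR hP h0.le hJ hLv.κ0 hLv.κ1 hη₀0 hx0 hx1 hρ0 hρη
  set e : ℝ := F.s * θ ^ 2 * (1 / Real.pi) with he
  -- the number of steps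
  have hMk : Tendsto (fun k : ℕ => (M : ℝ) ^ k) atTop atTop :=
    tendsto_pow_atTop_atTop_of_one_lt (by linarith)
  obtain ⟨k1, hk1⟩ := eventually_atTop.1
    ((hMk.eventually_gt_atTop (ρ / η₁)).and (hMk.eventually_ge_atTop (K : ℝ)))
  refine ⟨Real.exp (-(e * Real.log M)), Real.exp (e * Real.log ρ - B₁ - B₂),
    Real.exp (e * Real.log ρ + B₁ + B₂), k1, Real.exp_pos _, Real.exp_pos _, Real.exp_pos _,
    fun k hkk => ?_⟩
  obtain ⟨hm1, hm2⟩ := hk1 k hkk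
  have hMk0 : (0 : ℝ) < (M : ℝ) ^ k := by positivity
  set η : ℝ := ρ / (M : ℝ) ^ k with hη
  have hη0 : 0 < η := by positivity
  have hη1 : η < η₁ := by
    rw [hη, div_lt_iff₀ hMk0]
    rw [div_lt_iff₀ hη₁] at hm1
    linarith
  have hηρ : η ≤ ρ := by
    rw [hη]
    exact div_le_self hρ0.le (one_le_pow₀ (by linarith))
  have hηr : η < r := hηρ.trans_lt hρr
  have hηx : η * x ≤ η := mul_le_of_le_one_right hη0.le hx1
  have hG1 := (g₁ η hη0 hη1).filter_mono hFL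
  have hwin := hX.win.filter_mono hXL
  have hch := hX.ch.filter_mono hXL
  have hnear := hX.near.filter_mono hXL
  have hpo := X.poly.filter_mono hXL
  have hdo := X.dob.filter_mono hXL
  have hk' := hk.filter_mono hXL
  have t1 : Tendsto (fun n : ℕ => η * x * (n : ℝ)) atTop atTop :=
    tendsto_natCast_atTop_atTop.const_mul_atTop (by positivity)
  have t2 : Tendsto (fun n : ℕ => r * (n : ℝ)) atTop atTop :=
    tendsto_natCast_atTop_atTop.const_mul_atTop hr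
  have hF4 : (atTop ⊓ 𝓟 {n : ℕ | 4 ∣ n}) ≤ atTop := inf_le_left
  have hG2 := (g₂ η hη0).filter_mono hF4
  have ht1 := (t1.eventually_ge_atTop 200).filter_mono hF4
  have ht2 := (t2.eventually_ge_atTop 200).filter_mono hF4
  have hev := hG1.and (hG2.and (hwin.and (hch.and (hnear.and (hpo.and (hdo.and (hk'.and
    (ht1.and ht2))))))))
  rw [eventually_inf_principal] at hev
  obtain ⟨n1, hn1⟩ := eventually_atTop.1 hev
  refine ⟨max n1 1, fun r' hr' => ?_⟩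
  have hr'1 : 1 ≤ r' := (le_max_right _ _).trans hr'
  obtain ⟨n, h4n, hn, hfl2, hfl1⟩ := fl_n hρ0 hρ1 (m := M ^ k) (r := r') (by omega)
    (one_le_pow₀ (by omega))
  have hnn : n1 ≤ n := by
    have := (le_max_left _ _).trans (hr'.trans hn)
    exact_mod_cast this
  have hn0 : 0 < n := by
    have := hr'1.trans hn
    omega
  have hnr : (0 : ℝ) < n := by exact_mod_cast hn0
  obtain ⟨⟨v0, v1⟩, w2, w3, w4, w5, w6, w7, w8, w9, w10⟩ := hn1 n hnn h4n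
  push_cast at hfl1
  rw [← hη] at hfl1
  set R : ℤ := ⌊r * n / 4⌋ - 10 with hRdef
  have hRf := Int.floor_le (r * n / 4)
  have hRf' := Int.lt_floor_add_one (r * n / 4)
  have hRr : (R : ℝ) = (⌊r * n / 4⌋ : ℝ) - 10 := by rw [hRdef]; push_cast; rfl
  have hR1 : 1 ≤ R := by
    have : (1 : ℝ) ≤ R := by rw [hRr]; linarith
    exact_mod_cast this
  have hWin := w3 R hR1 (by rw [hRr]; linarith)
  have hA0 : 99 ≤ ⌊η * x * n / 2⌋ := by
    rw [Int.le_floor]; push_cast; linarith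
  have hΛρ : ∀ T : ℝ, T ≤ Λ → T * ρ ≤ η₀ := fun T hT =>
    (mul_le_mul_of_nonneg_right hT hρ0.le).trans hρΛ
  obtain ⟨hR3, hgr, hL⟩ := rings (L := L) hK hx hnr.le hm2 hr'1 rfl hA0 hfl1 hfl2
    (hΛρ _ (by have := abs_nonneg (L : ℝ); linarith)) (hΛρ _ (by linarith)) h64
    (by rw [hRr]; linarith) w10
  have hr99 : 50 ≤ r' := by
    have h3 : K * ⌊η * x * n / 2⌋ ≤ r' := hR3.low
    nlinarith
  have hM99 : 50 ≤ M ^ k * r' := by
    have h3 : (1 : ℤ) ≤ M ^ k := one_le_pow₀ (by omega)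
    nlinarith
  refine ⟨X.N n, Mq (mI i) (X.q n), (mI i).S (S.D n), l n, R, ![⌊η * x * n / 2⌋, r', M ^ k * r'],
    fun j => (mI i).F (f3 χ (nor i) c η x ρ n j), hWin, hR3, rfl, rfl, hgr, hL,
    bump3 S hX.flat hχ hη0 hηr hx0 hx1 hρ0 hρr hn0 w5 rfl hfl1.symm hfl2.symm ?_, ?_⟩
  · intro j
    have hj : j = 0 ∨ j = 1 ∨ j = 2 := by fin_cases j <;> simp
    rcases hj with rfl | rfl | rfl
    · show 50 ≤ ⌊η * x * n / 2⌋
      omega
    · exact hr99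
    · exact hM99
  · rw [val_eq h0 h1 hQ hβ hX.flat hχ.sh0 hη0 hηr hx0 hx1 hρ0 hρr w4 w6 w7 w8 hWin, ← hF]
    have hex := w2 ![⌊η * x * n / 2⌋, r', M ^ k * r'] rfl hfl1.symm hfl2.symm
    have hV0 : 0 < F.V n (fun w => θ * (fb (ms 2 x χ) (nor i) c η w - fb χ (nor i) c ρ w)) :=
      pos_of_mul_pos_left v0 (Real.exp_pos _).le
    have hlogη : Real.log η = Real.log ρ - k * Real.log M := by
      rw [hη, Real.log_div hρ0.ne' hMk0.ne', Real.log_pow]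
    have e1 : F.s * θ ^ 2 * (1 / Real.pi * Real.log η) = e * Real.log ρ - k * (e * Real.log M) := by
      rw [he, hlogη]; ring
    rw [e1] at v1
    exact fin_real hV0 v1 hex

end Vale.Agent.P167.H436.SP
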