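import Vale.Agent.P167.H436.ND.Nda6
import Vale.Agent.P167.H436.SP.G
import Vale.Agent.P167.H411.Q.Exs
import Vale.Agent.P167.H208.ND.FP
import Vale.Agent.P167.H692.B.Defs

/-!
# P167, general `q`, (BETA) (1): the unit square
-/

namespace Vale.Agent.P167.H436.SP

open Set Metric Filter Topology MeasureTheory Vale.Agent.P167 Vale.Agent.P167.H436.ND
open Vale.Agent.P167.FK
open Vale.Agent.P153.R2.R1
open Vale.Agent.P167.H192.Q (SRSW)
open Vale.Agent.P167.H519 (IsLim)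
open Vale.Agent.P167.H825.Q (Bc bdQ tN)
open Vale.Agent.P167.QB (gB)
open Vale.Agent.P167.H411.Q (sqD bpt exs_of)
open Vale.Agent.P167.Enl (kOf)

/-- **(BETA) (1)** from `CORE` of the free family of the unit square along a filter with
`atTop ⊓ 𝓟 {n | 4 ∣ n} ≤ L ≤ atTop`. -/
theorem powL_sq4 {θ : ℝ} {P : Measure Cfg} (h0 : 0 < θ) (h1 : θ ≤ Real.pi / 3)
    (hβ : Real.cos (θ / 2 + gB θ) = Real.sin θ) (hR : RSW (2 * Real.cos θ))
    (hS : SRSW (2 * Real.cos θ)) (hP : IsLim (2 * Real.cos θ) P) (hfr : Bc.free.In sqD.l)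
    {L : Filter ℕ} (hL : L ≤ atTop) (hL4 : (atTop ⊓ 𝓟 {n : ℕ | 4 ∣ n}) ≤ L)
    (hc : L.IsCountablyGenerated)
    (hcore : ((bdQ sqD θ (gB θ) .free hfr L hL hc).famB h0 h1 hβ).CORE) :
    S_powL θ P := by
  have hi : 2 < sqD.l := by
    show 2 < 4
    norm_num
  obtain ⟨r, hr, hF, hb⟩ := flat_jpt sqD (i := 2) (t := 1 / 2) (by norm_num) hi (by norm_num)
    (by norm_num)
  have hne : jpt sqD 2 (1 / 2) ≠ sqD.bp := by
    intro h
    rw [h] at hb
    exact hb (mem_ball_self hr)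
  have hbp : bpt sqD ((2 : ℕ) + 1 / 2) = jpt sqD 2 (1 / 2) :=
    bpt_jpt sqD 2 (by norm_num) (by norm_num)
  obtain ⟨ψ, hψ, hinj⟩ := exs_of sqD (x := ((2 : ℕ) : ℝ) + 1 / 2) (by rw [hbp]; exact hne)
  rw [hbp] at hψ
  refine powL_of h0 h1 hR hP hβ (H208.ND.s_fre h0 h1 hR hS hP)
    (X := bdQ sqD θ (gB θ) .free hfr L hL hc) hL4 hcore hψ hinj
    (jn_bdQ sqD hL hc .free hfr hi (by norm_num) (by norm_num) hr hF hb) ?_ hr hb
  show ∀ᶠ n in L, _
  exact Eventually.of_forall fun n => rfl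

/-- **(BETA) (1)** from `CORE` of the free family of the unit square (the full sequence). -/
theorem powL_sq {θ : ℝ} {P : Measure Cfg} (h0 : 0 < θ) (h1 : θ ≤ Real.pi / 3)
    (hβ : Real.cos (θ / 2 + gB θ) = Real.sin θ) (hR : RSW (2 * Real.cos θ))
    (hS : SRSW (2 * Real.cos θ)) (hP : IsLim (2 * Real.cos θ) P) (hfr : Bc.free.In sqD.l)
    (hc : (atTop : Filter ℕ).IsCountablyGenerated)
    (hcore : ((bdQ sqD θ (gB θ) .free hfr atTop le_rfl hc).famB h0 h1 hβ).CORE) :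
    S_powL θ P :=
  powL_sq4 h0 h1 hβ hR hS hP hfr le_rfl inf_le_left hc hcore

/-- The form of helper692. -/
theorem powL_692 {θ : ℝ} {P : Measure Cfg} (h : S_powL θ P) : H692.B.S_powL θ P := h

end Vale.Agent.P167.H436.SP
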