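import Vale.Agent.P167.H872.Asm.IdN
import Vale.Agent.P167.H436.SP.Fin

/-!
# P167, general `q`, (BETA) (1) from the open inputs of the analysis
-/

namespace Vale.Agent.P167.H436.SP

open Filter Topology MeasureTheory Vale.Agent.P167.FK
open Vale.Agent.P167.H519 (IsLim)
open Vale.Agent.P167.QT (F4 F4_le)
open Vale.Agent.P167.H872.Asm (In2 core_of hbe)
open Vale.Agent.P167.H411.Q (sqD)

/-- **(BETA) (1)** from `In2`. -/
theorem powL_in2 {θ : ℝ} {P : Measure Cfg} (h0 : 0 < θ) (h1 : θ ≤ Real.pi / 3) (I : In2 θ h0 h1)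
    (hP : IsLim (2 * Real.cos θ) P) : H692.B.S_powL θ P :=
  powL_sq4 h0 h1 (hbe θ) (K8.k_rsw θ h0.le h1) (H469.srsw_of_rsw h0 h1 (K8.k_rsw θ h0.le h1)) hP
    trivial F4_le le_rfl inferInstance
    (core_of h0 h1 (hbe θ) _
      (H662.L.momF_bdQ I.two h0 h1 (hbe θ) sqD (bc := .free) trivial F4_le inferInstance)
      (fun t => H365.NQ.nredq_cos h0 h1 t (by norm_num))
      (I.tw sqD .free trivial F4 F4_le inferInstance ⟨rfl, rfl, inf_le_right⟩ trivial)
      (H167.Q.bdQ_EQ h0 h1 (hbe θ) (S := sqD) (bc := .free) trivial F4_le inferInstance))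

end Vale.Agent.P167.H436.SP
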