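import Vale.Agent.P167.H436.ND.Nda4
import Vale.Agent.P167.H411.Q.Pow

/-!
# P167, general `q`, (BETA) (1): multi-scale bumps with different shapes at the levels
-/

namespace Vale.Agent.P167.H436.SP

open Set Metric Filter Topology MeasureTheory Vale.Agent.P167 Vale.Agent.P167.H436.ND
open scoped ComplexConjugate ContDiff
open Vale.Agent.P167.BVP (Flat Test)
open Vale.Agent.P167.CA (Dat cms fs cs)
open Vale.Agent.P167.H411.B7 (Shp scb)
open Vale.Agent.P167.H411.Q (fb VN BdA NDa)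
open Vale.Agent.P167.H640.ND (nor)
open Vale.Agent.P167.QB (gB XG)
open Vale.Agent.P167.H542.Q (BD)

/-- The multi-scale shape with the shape `X j` at the level `j`. -/
noncomputable def msX (J : ℕ) (κ : ℝ) (X : ℕ → ℂ → ℝ) (u : ℂ) : ℝ :=
  ∑ j ∈ Finset.range J, (1 / (J : ℝ)) * scb (X j) 0 (κ ^ j) u

theorem ms_msX (J : ℕ) (κ : ℝ) (χ : ℂ → ℝ) : ms J κ χ = msX J κ fun _ => χ := rfl

theorem fb_scb (χ : ℂ → ℝ) (ν c : ℂ) (η y : ℝ) (z : ℂ) :
    fb (scb χ 0 y) ν c η z = fb χ ν c (η * y) z := by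
  unfold fb scb
  have e1 : Complex.I * conj ν * (z - c) / η / ((y : ℝ) : ℂ) =
      Complex.I * conj ν * (z - c) / ((η * y : ℝ) : ℂ) := by
    rw [div_div]
    push_cast
    rfl
  have e2 : (η * y) ^ 2 = y ^ 2 * η ^ 2 := by ring
  rw [sub_zero, e1, e2, div_div]

theorem fb_msX (J : ℕ) (κ : ℝ) (X : ℕ → ℂ → ℝ) (ν c : ℂ) (η : ℝ) (z : ℂ) :
    fb (msX J κ X) ν c η z = ∑ j ∈ Finset.range J, (1 / (J : ℝ)) * fb (X j) ν c (η * κ ^ j) z := by
  have h : fb (msX J κ X) ν c η z =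
      ∑ j ∈ Finset.range J, (1 / (J : ℝ)) * fb (scb (X j) 0 (κ ^ j)) ν c η z := by
    unfold fb msX
    rw [Finset.sum_div]
    exact Finset.sum_congr rfl fun j _ => mul_div_assoc _ _ _
  rw [h]
  exact Finset.sum_congr rfl fun j _ => by rw [fb_scb]

theorem msX_shp {X : ℕ → ℂ → ℝ} (h : ∀ j, Sh0 (X j)) {J : ℕ} (hJ : 0 < J) {κ : ℝ} (hκ : 0 < κ)
    (hκ1 : κ ≤ 1) : Shp Complex.I (msX J κ X) := by
  have hJ' : (0 : ℝ) < J := by exact_mod_cast hJ
  have hk : ∀ j : ℕ, 0 < κ ^ j := fun j => pow_pos hκ j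
  refine ⟨?_, ?_, fun z => ?_, ?_⟩
  · unfold msX
    exact ContDiff.sum fun j _ => contDiff_const.mul (scb_shp (h j) (hk j)).1
  · have hcl : IsClosed {u : ℂ | ‖u‖ ≤ 1 ∧ κ ^ J / 2 ≤ u.im} :=
      (isClosed_le continuous_norm continuous_const).inter
        (isClosed_le continuous_const Complex.continuous_im)
    have hsub : tsupport (msX J κ X) ⊆ {u : ℂ | ‖u‖ ≤ 1 ∧ κ ^ J / 2 ≤ u.im} := by
      refine closure_minimal ?_ hcl
      intro u hu
      obtain ⟨j, hj, h1⟩ := Finset.exists_ne_zero_of_sum_ne_zero (hu : msX J κ X u ≠ 0)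
      have h2 : scb (X j) 0 (κ ^ j) u ≠ 0 := right_ne_zero_of_mul h1
      obtain ⟨h3, h4⟩ := (scb_shp (h j) (hk j)).2.2.2 u h2
      have h5 : κ ^ J ≤ κ ^ j := pow_le_pow_of_le_one hκ.le hκ1 (Finset.mem_range.1 hj).le
      exact ⟨h3.trans (pow_le_one₀ hκ.le hκ1), by linarith⟩
    intro u hu
    obtain ⟨h1, h2⟩ := hsub hu
    refine ⟨mem_closedBall_zero_iff.2 h1, ?_⟩
    show 0 < (u * conj Complex.I).re
    have : (u * conj Complex.I).re = u.im := by simp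
    rw [this]
    have := hk J
    linarith
  · unfold msX
    exact Finset.sum_nonneg fun j _ => mul_nonneg (by positivity) ((scb_shp (h j) (hk j)).2.1 z)
  · unfold msX
    rw [integral_finsetSum]
    · have : ∀ j ∈ Finset.range J, ∫ u, (1 / (J : ℝ)) * scb (X j) 0 (κ ^ j) u = 1 / J := by
        intro j _
        rw [integral_const_mul, (scb_shp (h j) (hk j)).2.2.1, mul_one]
      rw [Finset.sum_congr rfl this, Finset.sum_const, Finset.card_range, nsmul_eq_mul]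
      field_simp
    · intro j _
      refine Integrable.const_mul ?_ _
      refine (scb_shp (h j) (hk j)).1.continuous.integrable_of_hasCompactSupport ?_
      refine HasCompactSupport.of_support_subset_isCompact (isCompact_closedBall (0 : ℂ) (κ ^ j)) ?_
      intro u hu
      exact mem_closedBall_zero_iff.2 ((scb_shp (h j) (hk j)).2.2.2 u hu).1

section

variable {J : ℕ} {κ η η₀ : ℝ}

/-- The shape of the ring `i`. -/
def Xf (J : ℕ) (X Y : ℕ → ℂ → ℝ) (i : ℕ) : ℂ → ℝ := if i < J then X (J - 1 - i) else Y (2 * J - 1 - i)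

/-- **The lattice charge of the multi-scale bumps.** -/
theorem cms_msX (S : Dat) {a : ℂ} {ν : ℂ} {r : ℝ} (hF : Flat S.P a ν r) {X Y : ℕ → ℂ → ℝ}
    (hX : ∀ j, Sh0 (X j)) (hY : ∀ j, Sh0 (Y j)) (hκ : 0 < κ) (hκ1 : κ ≤ 1) (hη : 0 < η)
    (h : η ≤ η₀ * κ ^ J) (hr : η₀ < r) (τ : ℝ) (n : ℕ) :
    cms (fun w => τ * (fb (msX J κ X) ν a η w - fb (msX J κ Y) ν a η₀ w)) (1 / n) =
      Ft (tau2 J τ) (fun i => cms (fb (Xf J X Y i) ν a (esc J κ η η₀ i)) (1 / n)) 0 := by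
  have hη₀ : 0 < η₀ := by
    by_contra hcon
    have : η₀ * κ ^ J ≤ 0 := mul_nonpos_of_nonpos_of_nonneg (not_lt.1 hcon) (by positivity)
    linarith
  have hle : η ≤ η₀ := h.trans (mul_le_of_le_one_right hη₀.le (pow_le_one₀ hκ.le hκ1))
  have hi : ∀ (Z : ℕ → ℂ → ℝ), (∀ j, Sh0 (Z j)) → ∀ (x : ℝ), 0 < x → x ≤ η₀ → ∀ j : ℕ,
      Integrable (fb (Z j) ν a (x * κ ^ j)) := by
    intro Z hZ x hx hx' j
    refine CA.Test.integrable (H411.Q.fb_bp (hZ j).shp hF (by positivity) ?_).test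
    exact lt_of_le_of_lt ((mul_le_of_le_one_right hx.le (pow_le_one₀ hκ.le hκ1)).trans hx') hr
  have hI : ∀ (Z : ℕ → ℂ → ℝ), (∀ j, Sh0 (Z j)) → ∀ (x : ℝ), 0 < x → x ≤ η₀ →
      Integrable (fun w => ∑ j ∈ Finset.range J, (1 / (J : ℝ)) * fb (Z j) ν a (x * κ ^ j) w) := by
    intro Z hZ x hx hx'
    exact integrable_finsetSum _ fun j _ => (hi Z hZ x hx hx' j).const_mul _
  funext z
  simp only [fb_msX]
  rw [CA.cms_smul, CA.cms_sub (hI X hX η hη hle) (hI Y hY η₀ hη₀ le_rfl),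
    cms_sum _ _ _ fun j _ => hi X hX η hη hle j, cms_sum _ _ _ fun j _ => hi Y hY η₀ hη₀ le_rfl j]
  unfold Ft
  rw [Pi.zero_apply, add_zero]
  have e1 : ∑ i : Fin (2 * J), tau2 J τ i * cms (fb (Xf J X Y i) ν a (esc J κ η η₀ i)) (1 / n) z =
      ∑ i ∈ Finset.range (2 * J), (if i < J then τ / J else -(τ / J)) *
        cms (fb (Xf J X Y i) ν a (esc J κ η η₀ i)) (1 / n) z := by
    rw [Finset.sum_range]
    rfl
  rw [e1, two_mul J, Finset.sum_range_add]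
  have e2 : ∑ i ∈ Finset.range J, (if i < J then τ / J else -(τ / J)) *
        cms (fb (Xf J X Y i) ν a (esc J κ η η₀ i)) (1 / n) z =
      τ * ∑ j ∈ Finset.range J, (1 / (J : ℝ)) * cms (fb (X j) ν a (η * κ ^ j)) (1 / n) z := by
    rw [← Finset.sum_range_reflect
      (fun j => (1 / (J : ℝ)) * cms (fb (X j) ν a (η * κ ^ j)) (1 / n) z), Finset.mul_sum]
    refine Finset.sum_congr rfl fun i hi => ?_
    rw [Finset.mem_range] at hi
    rw [if_pos hi]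
    unfold esc Xf
    rw [if_pos hi, if_pos hi]
    ring
  have e3 : ∑ i ∈ Finset.range J, (if J + i < J then τ / J else -(τ / J)) *
        cms (fb (Xf J X Y (J + i)) ν a (esc J κ η η₀ (J + i))) (1 / n) z =
      -(τ * ∑ j ∈ Finset.range J, (1 / (J : ℝ)) * cms (fb (Y j) ν a (η₀ * κ ^ j)) (1 / n) z) := by
    rw [← Finset.sum_range_reflect
      (fun j => (1 / (J : ℝ)) * cms (fb (Y j) ν a (η₀ * κ ^ j)) (1 / n) z),
      Finset.mul_sum, ← Finset.sum_neg_distrib]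
    refine Finset.sum_congr rfl fun i hi => ?_
    rw [Finset.mem_range] at hi
    rw [if_neg (by omega)]
    unfold esc Xf
    rw [if_neg (by omega), if_neg (by omega), show 2 * J - 1 - (J + i) = J - 1 - i by omega]
    ring
  rw [e2, e3]
  ring

end

/-- **The charge `- θ` at a flat point, any shapes at the levels.** -/
theorem bdA_freX {S : Dat} {θ : ℝ} {P : Measure Cfg} {J : ℕ} {M : ℝ} {K : ℤ} {c C : ℝ} {a₀ : ℤ}
    {X : BD S θ (gB θ)} {a : ℂ} {i : Fin 4} {r : ℝ} {l : ℕ → ℕ} {κ : ℝ} (h0 : 0 < θ)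
    (h1 : θ ≤ Real.pi / 3) (hβ : Real.cos (θ / 2 + gB θ) = Real.sin θ) (hK : 4 ≤ K) (hc0 : 0 < c)
    (hJ : FreP θ P J M K c C a₀) (hX : Jn X a i r l) (hk : ∀ᶠ n in X.L, X.k n = X.N n)
    {Y Z : ℕ → ℂ → ℝ} (hY : ∀ j, Sh0 (Y j)) (hMY : ∀ j u, Y j u ≤ M) (hZ : ∀ j, Sh0 (Z j))
    (hMZ : ∀ j u, Z j u ≤ M) (hr : 0 < r) (hκ : κ = 1 / ((K : ℝ) + 1)) :
    BdA (-θ) (X.famB h0 h1 hβ) (msX J κ Y) (nor i) a
      (fb (msX J κ Z) (nor i) a (r / (16 * K))) (Nc θ P J κ (r / (16 * K))) := by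
  have hK' : (4 : ℝ) ≤ K := by exact_mod_cast hK
  have hκ0 : 0 < κ := by rw [hκ]; positivity
  have hκ1 : κ ≤ 1 := by rw [hκ, div_le_one (by positivity)]; linarith
  have hη₀ : 0 < r / (16 * K) := by positivity
  have hη₀r : r / (16 * K) < r := by
    rw [div_lt_iff₀ (by positivity)]
    nlinarith
  have hQ : 0 < 2 * Real.cos θ := by
    have := Real.pi_pos
    have := Real.cos_pos_of_mem_Ioo (x := θ) ⟨by linarith, by linarith⟩
    linarith
  refine ⟨c, C, r / (16 * K) * κ ^ J, hc0, by positivity, fun η hη hη2 => ?_⟩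
  have hev := ev_scl hK hr hκ hη hη2.le a₀
  show ∀ᶠ n in X.L, _
  filter_upwards [X.le hev, hX.win, hk, hX.ch, X.poly, X.dob, hX.near,
    X.le (eventually_gt_atTop 0)] with n ⟨g0, g1, g2, g3, g4⟩ hw hk' hch hpo hdo hnb hn
  have hWin := hw (⌊r * n / 4⌋ - 10 - 1) (by omega) (by
    push_cast
    linarith [Int.floor_le (r * n / 4)])
  unfold VN Nc
  rw [H542.Q.BD.famB_V, cms_msX S hX.flat hY hZ hκ0 hκ1 hη hη2.le hη₀r, ← Ex0_mul, hk']
  rw [hk'] at hdo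
  refine fre_M hQ hJ (mI i) hch hpo hWin (by omega) hdo g2 g3 g4 fun j => ?_
  have hs : Sh0 (Xf J Y Z j) ∧ ∀ u, Xf J Y Z j u ≤ M := by
    unfold Xf
    split_ifs
    · exact ⟨hY _, hMY _⟩
    · exact ⟨hZ _, hMZ _⟩
  refine bp_fb S hX.flat hs.1 hs.2 (esc_pos hκ0 hη hη₀ j) ?_ hn hnb rfl (g1 j)
  exact lt_of_le_of_lt (esc_le_top hκ0 hκ1 hη hη2.le j) hη₀r

end Vale.Agent.P167.H436.SP
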