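import Vale.Agent.P167.H436.SP.A

/-!
# P167, general `q`, (BETA) (1): the linear functional on bumps of different scales
-/

namespace Vale.Agent.P167.H436.SP

open Set Metric Filter Topology MeasureTheory Vale.Agent.P167 Vale.Agent.P167.H436.ND
open scoped ComplexConjugate ContDiff
open Vale.Agent.P153.R2.R1
open Vale.Agent.P167.BVP (Flat Test)
open Vale.Agent.P167.CA (Dat Pair)
open Vale.Agent.P167.CAQ (Fam)
open Vale.Agent.P167.H411.B7 (Shp scb ginv)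
open Vale.Agent.P167.H411.Q (fb VN BdA hQ log_V log_VN ff_of en_growth pair_of_isU fb_bp)

variable {S : Dat} {F : Fam S} {ψ : ℂ → ℂ} {a ν : ℂ} {ra μ : ℝ}

theorem int_fb {χ : ℂ → ℝ} (hχ : Shp Complex.I χ) (hF : Flat S.P a ν ra) {η : ℝ} (h0 : 0 < η)
    (h1 : η < ra) : Integrable (fb χ ν a η) := CA.Test.integrable (fb_bp hχ hF h0 h1).test

/-- The value of the linear functional, from the bounds for the charge `- μ`. -/
theorem U_of_bd (hcore : F.CORE) (h : IsU ψ S.P a S.bp) (hinj : InjOn ψ {z | 0 ≤ z.im})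
    (hF : Flat S.P a ν ra) (hp : S.bp ∉ ball a ra) {χ h₀ : ℂ → ℝ} {N : ℕ → ℝ → ℝ}
    (hχ : Shp Complex.I χ) (hh : Test S.P h₀) (hm : ∫ w, h₀ w = 1) (hbd : BdA (-μ) F χ ν a h₀ N) :
    ∃ B η₁ : ℝ, 0 < η₁ ∧ η₁ ≤ ra ∧ ∀ η : ℝ, 0 < η → η < η₁ → ∀ᶠ n : ℕ in F.L,
      |μ * F.U n (fun w => fb χ ν a η w - h₀ w) - μ * N n η +
        F.s / 2 * μ ^ 2 * (1 / Real.pi * Real.log η)| ≤ B := by
  obtain ⟨M, η₁, hη₁, hen⟩ := en_growth h hinj hF hp hχ hh
  obtain ⟨c₃, C₃, η₃, hc₃, hη₃, b3⟩ := hbd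
  have hP := pair_of_isU h hinj
  refine ⟨|Real.log c₃| + |Real.log C₃| + 1 + |F.s / 2 * μ ^ 2| * |M|, min (min η₁ η₃) ra,
    lt_min (lt_min hη₁ hη₃) hF.pos, min_le_right _ _, fun η hη hηlt => ?_⟩
  have f1 : η < η₁ := hηlt.trans_le ((min_le_left _ _).trans (min_le_left _ _))
  have f3 : η < η₃ := hηlt.trans_le ((min_le_left _ _).trans (min_le_right _ _))
  have f4 : η < ra := hηlt.trans_le (min_le_right _ _)
  have hφ := fb_bp hχ hF hη f4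
  have hf : S.FF fun z => fb χ ν a η z - h₀ z := ff_of hφ.test hh (by rw [hφ.mass, hm])
  have he := hen η hη f1
  set E := CA.en (ginv ψ) (fun z => fb χ ν a η z - h₀ z) (fun z => fb χ ν a η z - h₀ z) with hE
  have c2 := log_VN hcore hP hf (-μ) N
  filter_upwards [c2, b3 η hη f3] with n ⟨p2, q2⟩ r
  have s3 := Real.log_le_log hc₃ r.1
  have s4 := Real.log_le_log p2 r.2
  have s5 := neg_abs_le (Real.log c₃)
  have s6 := le_abs_self (Real.log C₃)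
  have s7 := abs_nonneg (Real.log c₃)
  have s8 := abs_nonneg (Real.log C₃)
  have hM : |F.s / 2 * μ ^ 2 * (E + 1 / Real.pi * Real.log η)| ≤ |F.s / 2 * μ ^ 2| * |M| := by
    rw [abs_mul]
    exact mul_le_mul_of_nonneg_left (he.trans (le_abs_self M)) (abs_nonneg _)
  rw [abs_le] at q2 hM ⊢
  constructor <;> nlinarith [q2.1, q2.2, hM.1, hM.2]

/-- Two shapes. -/
theorem U_two (hcore : F.CORE) (h : IsU ψ S.P a S.bp) (hinj : InjOn ψ {z | 0 ≤ z.im})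
    (hF : Flat S.P a ν ra) (hp : S.bp ∉ ball a ra) (hμ : 0 < μ) {χ₁ χ₂ h₀ : ℂ → ℝ}
    {N : ℕ → ℝ → ℝ} (hχ₁ : Shp Complex.I χ₁) (hχ₂ : Shp Complex.I χ₂) (hh : Test S.P h₀)
    (hm : ∫ w, h₀ w = 1) (h₁ : BdA (-μ) F χ₁ ν a h₀ N) (h₂ : BdA (-μ) F χ₂ ν a h₀ N) :
    ∃ B η₁ : ℝ, 0 < η₁ ∧ η₁ ≤ ra ∧ ∀ η : ℝ, 0 < η → η < η₁ → ∀ᶠ n : ℕ in F.L,
      |F.U n (fun w => fb χ₁ ν a η w - fb χ₂ ν a η w)| ≤ B := by
  obtain ⟨B₁, e₁, he₁, he₁', g₁⟩ := U_of_bd hcore h hinj hF hp hχ₁ hh hm h₁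
  obtain ⟨B₂, e₂, he₂, he₂', g₂⟩ := U_of_bd hcore h hinj hF hp hχ₂ hh hm h₂
  refine ⟨(B₁ + B₂) / μ, min e₁ e₂, lt_min he₁ he₂, (min_le_left _ _).trans he₁',
    fun η hη hηlt => ?_⟩
  have k1 : η < e₁ := hηlt.trans_le (min_le_left _ _)
  have k2 : η < e₂ := hηlt.trans_le (min_le_right _ _)
  have i1 := int_fb hχ₁ hF hη (k1.trans_le he₁')
  have i2 := int_fb hχ₂ hF hη (k1.trans_le he₁')
  have i3 : Integrable h₀ := CA.Test.integrable hh
  filter_upwards [g₁ η hη k1, g₂ η hη k2] with n p q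
  rw [CAQ.U_sub F n i1 i3] at p
  rw [CAQ.U_sub F n i2 i3] at q
  rw [CAQ.U_sub F n i1 i2, le_div_iff₀ hμ]
  rw [abs_le] at p q
  have : |F.U n (fb χ₁ ν a η) - F.U n (fb χ₂ ν a η)| * μ =
      |μ * (F.U n (fb χ₁ ν a η) - F.U n (fb χ₂ ν a η))| := by
    rw [abs_mul, abs_of_pos hμ, mul_comm]
  rw [this, abs_le]
  constructor <;> nlinarith [p.1, p.2, q.1, q.2]

/-! ### the shape -/

/-- A shape with a smaller support. -/
structure Sh1 (χ : ℂ → ℝ) : Prop where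
  sh0 : Sh0 χ
  supp' : tsupport χ ⊆ closedBall ((3 / 4 : ℝ) * Complex.I) (1 / 20)
  bd : ∀ u, χ u ≤ 1000

theorem exists_sh1 : ∃ χ, Sh1 χ := by
  let f : ContDiffBump (((3 / 4 : ℝ) : ℂ) * Complex.I) := ⟨1 / 24, 1 / 20, by norm_num, by norm_num⟩
  refine ⟨f.normed volume, ⟨f.contDiff_normed, fun u => f.nonneg_normed u, f.integral_normed, ?_⟩,
    ?_, fun u => ?_⟩
  · rw [f.tsupport_normed_eq]
    exact closedBall_subset_closedBall (by show (1 / 20 : ℝ) ≤ 1 / 16; norm_num)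
  · rw [f.tsupport_normed_eq]
  · have h := f.normed_le_div_measure_closedBall_rOut (μ := volume) (6 / 5)
      (by show (1 / 20 : ℝ) ≤ 6 / 5 * (1 / 24); norm_num) u
    refine h.trans ?_
    rw [Complex.finrank_real_complex, Measure.real, Complex.volume_closedBall]
    show (6 / 5 : ℝ) ^ 2 / (ENNReal.ofReal (1 / 20) ^ 2 * (NNReal.pi : ENNReal)).toReal ≤ 1000
    rw [ENNReal.toReal_mul, ENNReal.toReal_pow, ENNReal.toReal_ofReal (by norm_num)]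
    have : ((NNReal.pi : ENNReal)).toReal = Real.pi := rfl
    rw [this, div_le_iff₀ (by positivity)]
    nlinarith [Real.pi_gt_three]

theorem Sh1.scb {χ : ℂ → ℝ} (h : Sh1 χ) {y : ℝ} (h1 : 1 ≤ y) (h2 : y ≤ 101 / 100) :
    Sh0 (scb χ 0 y) where
  smooth := (scb_shp h.sh0 (by linarith)).1
  nonneg := (scb_shp h.sh0 (by linarith)).2.1
  mass := (scb_shp h.sh0 (by linarith)).2.2.1
  supp u hu := by
    have hy : 0 < y := by linarith
    have h3 := h.supp' (H411.B7.tsupport_scb 0 hu)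
    rw [sub_zero, mem_closedBall, dist_eq_norm] at h3
    rw [mem_closedBall, dist_eq_norm]
    have hy0 : (y : ℂ) ≠ 0 := by exact_mod_cast hy.ne'
    have e : u - ((3 / 4 : ℝ) : ℂ) * Complex.I = y * (u / y - ((3 / 4 : ℝ) : ℂ) * Complex.I) +
        ((3 / 4 * (y - 1) : ℝ) : ℂ) * Complex.I := by
      field_simp
      push_cast
      ring
    rw [e]
    refine (norm_add_le _ _).trans ?_
    rw [norm_mul, norm_mul, Complex.norm_I, mul_one, Complex.norm_real, Complex.norm_real,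
      Real.norm_of_nonneg hy.le, Real.norm_of_nonneg (by linarith)]
    nlinarith

theorem scb_le {χ : ℂ → ℝ} {M : ℝ} (hχ : ∀ u, 0 ≤ χ u) (hM : ∀ u, χ u ≤ M) {y : ℝ} (h1 : 1 ≤ y)
    (u : ℂ) : scb χ 0 y u ≤ M := by
  unfold H411.B7.scb
  refine (div_le_self (hχ _) ?_).trans (hM _)
  nlinarith

end Vale.Agent.P167.H436.SP
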