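import Vale.Agent.P167.H436.SP.B

/-!
# P167, general `q`, (BETA) (1): bumps of different scales, the power law
-/

namespace Vale.Agent.P167.H436.SP

open Set Metric Filter Topology MeasureTheory Vale.Agent.P167 Vale.Agent.P167.H436.ND
open scoped ComplexConjugate ContDiff
open Vale.Agent.P153.R2.R1
open Vale.Agent.P167.BVP (Flat Test)
open Vale.Agent.P167.CA (Dat Pair)
open Vale.Agent.P167.CAQ (Fam)
open Vale.Agent.P167.H411.B7 (Shp scb ginv)
open Vale.Agent.P167.H411.Q (fb VN BdA hQ log_V log_VN ff_of en_growth pair_of_isU fb_bp)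

variable {S : Dat} {F : Fam S} {ψ : ℂ → ℂ} {a ν : ℂ} {ra μ M : ℝ} {J : ℕ} {κ : ℝ} {h₀ : ℂ → ℝ}
  {N : ℕ → ℝ → ℝ}

/-- The bounds for all shapes at the levels. -/
structure Lv (F : Fam S) (μ : ℝ) (ν a : ℂ) (M : ℝ) (J : ℕ) (κ : ℝ) (h₀ : ℂ → ℝ) (N : ℕ → ℝ → ℝ) :
    Prop where
  J0 : 0 < J
  κ0 : 0 < κ
  κ1 : κ ≤ 1
  test : Test S.P h₀
  mass : ∫ w, h₀ w = 1
  bd : ∀ Y : ℕ → ℂ → ℝ, (∀ j, Sh0 (Y j)) → (∀ j u, Y j u ≤ M) → BdA (-μ) F (msX J κ Y) ν a h₀ N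

/-- The data of the domain. -/
structure Dm (F : Fam S) (ψ : ℂ → ℂ) (a ν : ℂ) (ra μ : ℝ) : Prop where
  core : F.CORE
  isU : IsU ψ S.P a S.bp
  inj : InjOn ψ {z | 0 ≤ z.im}
  flat : Flat S.P a ν ra
  off : S.bp ∉ ball a ra
  pos : 0 < μ

/-- Two shapes, one scale. -/
theorem U_top (hD : Dm F ψ a ν ra μ) (hL : Lv F μ ν a M J κ h₀ N) {X X' : ℂ → ℝ} (hX : Sh0 X)
    (hX' : Sh0 X') (hM : ∀ u, X u ≤ M) (hM' : ∀ u, X' u ≤ M) :
    ∃ B η₁ : ℝ, 0 < η₁ ∧ η₁ ≤ ra ∧ ∀ η : ℝ, 0 < η → η < η₁ → ∀ᶠ n : ℕ in F.L,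
      |F.U n (fun w => fb X ν a η w - fb X' ν a η w)| ≤ B := by
  have hJ : (0 : ℝ) < J := by exact_mod_cast hL.J0
  set Y : ℕ → ℂ → ℝ := fun j => if j = 0 then X else X' with hY
  have hY0 : ∀ j, Sh0 (Y j) := fun j => by rw [hY]; simp only; split_ifs <;> assumption
  have hYM : ∀ j u, Y j u ≤ M := fun j u => by
    rw [hY]; simp only; split_ifs
    · exact hM u
    · exact hM' u
  obtain ⟨B, e, he, he', g⟩ := U_two hD.core hD.isU hD.inj hD.flat hD.off hD.pos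
    (msX_shp hY0 hL.J0 hL.κ0 hL.κ1) (msX_shp (X := fun _ => X') (fun _ => hX') hL.J0 hL.κ0 hL.κ1)
    hL.test hL.mass (hL.bd Y hY0 hYM) (hL.bd (fun _ => X') (fun _ => hX') fun _ => hM')
  refine ⟨J * B, e, he, he', fun η h1 h2 => ?_⟩
  filter_upwards [g η h1 h2] with n hn
  have e1 : (fun w => fb (msX J κ Y) ν a η w - fb (msX J κ fun _ => X') ν a η w) =
      fun w => (1 / (J : ℝ)) * (fb X ν a η w - fb X' ν a η w) := by
    funext w
    rw [fb_msX, fb_msX, ← Finset.sum_sub_distrib, Finset.sum_eq_single 0]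
    · rw [hY]
      simp only [if_true, pow_zero, mul_one]
      ring
    · intro j _ hj
      rw [hY]
      simp only [if_neg hj]
      ring
    · intro h
      exact absurd (Finset.mem_range.2 hL.J0) h
  rw [e1, CAQ.U_smul, abs_mul, abs_of_pos (by positivity)] at hn
  have := mul_le_mul_of_nonneg_left hn hJ.le
  rwa [← mul_assoc, mul_one_div_cancel hJ.ne', one_mul] at this

/-- One shape, two close scales. -/
theorem U_close (hD : Dm F ψ a ν ra μ) (hL : Lv F μ ν a M J κ h₀ N) {χ : ℂ → ℝ} (hχ : Sh1 χ)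
    (hM : ∀ u, χ u ≤ M) {y : ℝ} (h1 : 1 ≤ y) (h2 : y ≤ 101 / 100) :
    ∃ B η₁ : ℝ, 0 < η₁ ∧ η₁ ≤ ra ∧ ∀ η : ℝ, 0 < η → η < η₁ → ∀ᶠ n : ℕ in F.L,
      |F.U n (fun w => fb χ ν a (η * y) w - fb χ ν a η w)| ≤ B := by
  obtain ⟨B, e, he, he', g⟩ := U_top hD hL (hχ.scb h1 h2) hχ.sh0
    (scb_le hχ.sh0.nonneg hM h1) hM
  refine ⟨B, e, he, he', fun η h3 h4 => ?_⟩
  filter_upwards [g η h3 h4] with n hn
  simp only [fb_scb] at hn
  exact hn

/-- `m` steps. -/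
theorem U_chain (hD : Dm F ψ a ν ra μ) (hL : Lv F μ ν a M J κ h₀ N) {χ : ℂ → ℝ} (hχ : Sh1 χ)
    (hM : ∀ u, χ u ≤ M) {y : ℝ} (h1 : 1 ≤ y) (h2 : y ≤ 101 / 100) (m : ℕ) :
    ∃ B η₁ : ℝ, 0 < η₁ ∧ η₁ ≤ ra ∧ ∀ η : ℝ, 0 < η → η < η₁ → ∀ᶠ n : ℕ in F.L,
      |F.U n (fun w => fb χ ν a η w - fb χ ν a (η / y ^ m) w)| ≤ B := by
  have hy : 0 < y := by linarith
  obtain ⟨B, e, he, he', g⟩ := U_close hD hL hχ hM h1 h2
  refine ⟨m * B, e, he, he', fun η h3 h4 => ?_⟩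
  have hle : ∀ k : ℕ, η / y ^ k ≤ η := fun k => div_le_self h3.le (one_le_pow₀ h1)
  have hint : ∀ k : ℕ, Integrable (fb χ ν a (η / y ^ k)) := fun k =>
    int_fb hχ.sh0.shp hD.flat (by positivity) ((hle k).trans_lt (h4.trans_le he'))
  induction m with
  | zero =>
    refine Eventually.of_forall fun n => ?_
    have : (fun w => fb χ ν a η w - fb χ ν a (η / y ^ 0) w) =
        fun w => (0 : ℝ) * fb χ ν a η w := by
      funext w; rw [pow_zero, div_one]; ring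
    rw [this, CAQ.U_smul]
    simp
  | succ m ih =>
    have g' := g (η / y ^ (m + 1)) (by positivity) ((hle _).trans_lt h4)
    filter_upwards [ih, g'] with n p q
    have e1 : η / y ^ (m + 1) * y = η / y ^ m := by
      rw [pow_succ]; field_simp
    rw [e1] at q
    have i0 := hint 0
    rw [pow_zero, div_one] at i0
    rw [CAQ.U_sub F n i0 (hint m)] at p
    rw [CAQ.U_sub F n (hint m) (hint (m + 1))] at q
    rw [CAQ.U_sub F n i0 (hint (m + 1))]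
    have e2 : F.U n (fb χ ν a η) - F.U n (fb χ ν a (η / y ^ (m + 1))) =
        (F.U n (fb χ ν a η) - F.U n (fb χ ν a (η / y ^ m))) +
        (F.U n (fb χ ν a (η / y ^ m)) - F.U n (fb χ ν a (η / y ^ (m + 1)))) := by ring
    have e3 : ((m + 1 : ℕ) : ℝ) * B = m * B + B := by push_cast; ring
    rw [e2, e3]
    exact (abs_add_le _ _).trans (add_le_add p q)

theorem exists_root {x : ℝ} (hx : 1 ≤ x) : ∃ (m : ℕ) (y : ℝ), 1 ≤ y ∧ y ≤ 101 / 100 ∧ y ^ m = x := by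
  have hl : 0 < Real.log (101 / 100) := Real.log_pos (by norm_num)
  have hlx : 0 ≤ Real.log x := Real.log_nonneg hx
  obtain ⟨m, hm⟩ := exists_nat_ge (Real.log x / Real.log (101 / 100) + 1)
  have hm0 : (0 : ℝ) < m := by
    have : 0 ≤ Real.log x / Real.log (101 / 100) := by positivity
    linarith
  refine ⟨m, Real.exp (Real.log x / m), Real.one_le_exp (by positivity), ?_, ?_⟩
  · rw [← Real.exp_log (show (0 : ℝ) < 101 / 100 by norm_num)]
    refine Real.exp_le_exp.2 ?_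
    rw [div_le_iff₀ hm0]
    have : Real.log x / Real.log (101 / 100) ≤ m := by linarith
    rw [div_le_iff₀ hl] at this
    linarith
  · rw [← Real.exp_nat_mul, mul_div_cancel₀ _ hm0.ne', Real.exp_log (by linarith)]

/-- **One shape, two scales.** -/
theorem U_scale (hD : Dm F ψ a ν ra μ) (hL : Lv F μ ν a M J κ h₀ N) {χ : ℂ → ℝ} (hχ : Sh1 χ)
    (hM : ∀ u, χ u ≤ M) {x : ℝ} (hx0 : 0 < x) (hx : x ≤ 1) :
    ∃ B η₁ : ℝ, 0 < η₁ ∧ η₁ ≤ ra ∧ ∀ η : ℝ, 0 < η → η < η₁ → ∀ᶠ n : ℕ in F.L,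
      |F.U n (fun w => fb χ ν a (η * x) w - fb χ ν a η w)| ≤ B := by
  obtain ⟨m, y, h1, h2, h3⟩ := exists_root (x := 1 / x) (by rw [le_div_iff₀ hx0]; linarith)
  obtain ⟨B, e, he, he', g⟩ := U_chain hD hL hχ hM h1 h2 m
  refine ⟨B, e, he, he', fun η h4 h5 => ?_⟩
  filter_upwards [g η h4 h5] with n hn
  rw [h3, div_div_eq_mul_div, div_one] at hn
  have i1 := int_fb hχ.sh0.shp hD.flat h4 (h5.trans_le he')
  have i2 := int_fb hχ.sh0.shp hD.flat (η := η * x) (by positivity)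
    ((mul_le_of_le_one_right h4.le hx).trans_lt (h5.trans_le he'))
  rw [CAQ.U_sub F n i1 i2] at hn
  rw [CAQ.U_sub F n i2 i1, abs_sub_comm]
  exact hn

theorem U_sum {ι : Type*} (s : Finset ι) (f : ι → ℂ → ℝ) (hf : ∀ j ∈ s, Integrable (f j)) (n : ℕ) :
    F.U n (fun w => ∑ j ∈ s, f j w) = ∑ j ∈ s, F.U n (f j) := by
  classical
  induction s using Finset.induction_on with
  | empty =>
    have : (fun w : ℂ => ∑ j ∈ (∅ : Finset ι), f j w) = fun w => (0 : ℝ) * (0 : ℝ) := by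
      funext w; simp
    rw [this, CAQ.U_smul, Finset.sum_empty, zero_mul]
  | insert i s hi ih =>
    have h1 : (fun w => ∑ j ∈ insert i s, f j w) = fun w => f i w + ∑ j ∈ s, f j w := by
      funext w; rw [Finset.sum_insert hi]
    rw [h1, Finset.sum_insert hi, CAQ.U_add F n (hf i (Finset.mem_insert_self i s))
      (integrable_finsetSum _ fun j hj => hf j (Finset.mem_insert_of_mem hj)),
      ih fun j hj => hf j (Finset.mem_insert_of_mem hj)]

/-- **The mean of the scales.** -/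
theorem U_mean (hD : Dm F ψ a ν ra μ) (hL : Lv F μ ν a M J κ h₀ N) {χ : ℂ → ℝ} (hχ : Sh1 χ)
    (hM : ∀ u, χ u ≤ M) {J' : ℕ} (hJ : 0 < J') {x : ℝ} (hx0 : 0 < x) (hx : x ≤ 1) :
    ∃ B η₁ : ℝ, 0 < η₁ ∧ η₁ ≤ ra ∧ ∀ η : ℝ, 0 < η → η < η₁ → ∀ᶠ n : ℕ in F.L,
      |F.U n (fun w => fb (ms J' x χ) ν a η w - fb χ ν a η w)| ≤ B := by
  have hJ' : (0 : ℝ) < J' := by exact_mod_cast hJ
  have h1 : ∀ j : ℕ, ∃ B η₁ : ℝ, 0 < η₁ ∧ η₁ ≤ ra ∧ ∀ η : ℝ, 0 < η → η < η₁ → ∀ᶠ n : ℕ in F.L,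
      |F.U n (fun w => fb χ ν a (η * x ^ j) w - fb χ ν a η w)| ≤ B := fun j =>
    U_scale hD hL hχ hM (pow_pos hx0 j) (pow_le_one₀ hx0.le hx)
  choose B e he he' g using h1
  have hne : (Finset.range J').Nonempty := Finset.nonempty_range_iff.2 hJ.ne'
  refine ⟨∑ j ∈ Finset.range J', |B j|, (Finset.range J').inf' hne e, ?_, ?_, fun η h3 h4 => ?_⟩
  · rw [Finset.lt_inf'_iff]
    exact fun j _ => he j
  · obtain ⟨j, hj⟩ := hne
    exact (Finset.inf'_le _ hj).trans (he' j)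
  · rw [Finset.lt_inf'_iff] at h4
    have h5 : ∀ᶠ n : ℕ in F.L, ∀ j ∈ Finset.range J',
        |F.U n (fun w => fb χ ν a (η * x ^ j) w - fb χ ν a η w)| ≤ B j := by
      rw [Filter.eventually_all_finset]
      exact fun j hj => g j η h3 (h4 j hj)
    filter_upwards [h5] with n hn
    have e1 : (fun w => fb (ms J' x χ) ν a η w - fb χ ν a η w) =
        fun w => (1 / (J' : ℝ)) * ∑ j ∈ Finset.range J', (fb χ ν a (η * x ^ j) w - fb χ ν a η w) := by
      funext w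
      rw [fb_ms, Finset.sum_sub_distrib, Finset.sum_const, Finset.card_range, nsmul_eq_mul,
        ← Finset.mul_sum]
      field_simp
    have hera : ∀ j ∈ Finset.range J', η < ra := fun j hj => (h4 j hj).trans_le (he' j)
    have i1 : ∀ j ∈ Finset.range J', Integrable (fun w => fb χ ν a (η * x ^ j) w - fb χ ν a η w) :=
      fun j hj => (int_fb hχ.sh0.shp hD.flat (by positivity)
        ((mul_le_of_le_one_right h3.le (pow_le_one₀ hx0.le hx)).trans_lt (hera j hj))).sub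
          (int_fb hχ.sh0.shp hD.flat h3 (hera j hj))
    rw [e1, CAQ.U_smul, U_sum _ _ i1, abs_mul, abs_of_pos (by positivity)]
    have h6 : |∑ j ∈ Finset.range J', F.U n (fun w => fb χ ν a (η * x ^ j) w - fb χ ν a η w)| ≤
        ∑ j ∈ Finset.range J', |B j| :=
      (Finset.abs_sum_le_sum_abs _ _).trans
        (Finset.sum_le_sum fun j hj => (hn j hj).trans (le_abs_self _))
    have h7 : 1 / (J' : ℝ) ≤ 1 := by
      rw [div_le_one hJ']
      exact_mod_cast hJ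
    calc 1 / (J' : ℝ) * _ ≤ 1 * ∑ j ∈ Finset.range J', |B j| := by gcongr
      _ = _ := one_mul _

end Vale.Agent.P167.H436.SP
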