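import Vale.Agent.P167.H436.SP.C

/-!
# P167, general `q`, (BETA) (1): the power law for two rings against one ring
-/

namespace Vale.Agent.P167.H436.SP

open Set Metric Filter Topology MeasureTheory Vale.Agent.P167 Vale.Agent.P167.H436.ND
open scoped ComplexConjugate ContDiff
open Vale.Agent.P153.R2.R1
open Vale.Agent.P167.BVP (Flat Test)
open Vale.Agent.P167.CA (Dat Pair)
open Vale.Agent.P167.CAQ (Fam)
open Vale.Agent.P167.H411.B7 (Shp scb ginv)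
open Vale.Agent.P167.H411.Q (fb VN BdA hQ log_V log_VN ff_of en_growth pair_of_isU fb_bp)

variable {S : Dat} {F : Fam S} {ψ : ℂ → ℂ} {a ν : ℂ} {ra μ M : ℝ} {J : ℕ} {κ : ℝ} {h₀ : ℂ → ℝ}
  {N : ℕ → ℝ → ℝ}

/-- **The power law.** -/
theorem pow_two (hD : Dm F ψ a ν ra μ) (hL : Lv F μ ν a M J κ h₀ N) {χ : ℂ → ℝ} (hχ : Sh1 χ)
    (hM : ∀ u, χ u ≤ M) {J' : ℕ} (hJ : 0 < J') {x : ℝ} (hx0 : 0 < x) (hx : x ≤ 1) {h₂ : ℂ → ℝ}
    (hh : Test S.P h₂) (hm : ∫ w, h₂ w = 1) :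
    ∃ B η₁ : ℝ, 0 < η₁ ∧ ∀ η : ℝ, 0 < η → η < η₁ → ∀ᶠ n : ℕ in F.L,
      0 < VN μ F (ms J' x χ) ν a h₂ N n η ∧
      |Real.log (VN μ F (ms J' x χ) ν a h₂ N n η) - F.s * μ ^ 2 * (1 / Real.pi * Real.log η)| ≤
        B := by
  have hμ := hD.pos
  have hP := pair_of_isU hD.isU hD.inj
  have sJ : Shp Complex.I (ms J κ χ) := ms_shp hχ.sh0 hL.J0 hL.κ0 hL.κ1
  have sJ' : Shp Complex.I (ms J' x χ) := ms_shp hχ.sh0 hJ hx0 hx
  obtain ⟨B₁, e₁, he₁, he₁', g₁⟩ := U_of_bd hD.core hD.isU hD.inj hD.flat hD.off sJ hL.test hL.mass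
    (hL.bd (fun _ => χ) (fun _ => hχ.sh0) fun _ => hM)
  obtain ⟨B₂, e₂, he₂, he₂', g₂⟩ := U_mean hD hL hχ hM hL.J0 hL.κ0 hL.κ1
  obtain ⟨B₃, e₃, he₃, he₃', g₃⟩ := U_mean hD hL hχ hM hJ hx0 hx
  obtain ⟨B₅, e₅, he₅, g₅⟩ := en_growth hD.isU hD.inj hD.flat hD.off sJ' hh
  have hff : S.FF fun w => h₂ w - h₀ w := ff_of hh hL.test (by rw [hm, hL.mass])
  obtain ⟨B₄, g₄⟩ := (hD.core _ _ hP _ hff).1
  refine ⟨B₁ + |μ| * (B₂ + B₃ + B₄) + |F.s / 2 * μ ^ 2| * B₅ + 1,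
    min (min e₁ e₂) (min e₃ e₅), lt_min (lt_min he₁ he₂) (lt_min he₃ he₅), fun η hη hlt => ?_⟩
  have l1 : η < e₁ := hlt.trans_le ((min_le_left _ _).trans (min_le_left _ _))
  have l2 : η < e₂ := hlt.trans_le ((min_le_left _ _).trans (min_le_right _ _))
  have l3 : η < e₃ := hlt.trans_le ((min_le_right _ _).trans (min_le_left _ _))
  have l5 : η < e₅ := hlt.trans_le ((min_le_right _ _).trans (min_le_right _ _))
  have lr : η < ra := l1.trans_le he₁'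
  have hφ := fb_bp sJ' hD.flat hη lr
  have hf : S.FF fun w => fb (ms J' x χ) ν a η w - h₂ w := ff_of hφ.test hh (by rw [hφ.mass, hm])
  have c1 := log_VN hD.core hP hf μ N
  have iJ := int_fb sJ hD.flat hη lr
  have iJ' := int_fb sJ' hD.flat hη lr
  have iχ := int_fb hχ.sh0.shp hD.flat hη lr
  have i0 : Integrable h₀ := CA.Test.integrable hL.test
  have i2 : Integrable h₂ := CA.Test.integrable hh
  have he := g₅ η hη l5
  set E := CA.en (ginv ψ) (fun z => fb (ms J' x χ) ν a η z - h₂ z)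
    (fun z => fb (ms J' x χ) ν a η z - h₂ z) with hE
  filter_upwards [c1, g₁ η hη l1, g₂ η hη l2, g₃ η hη l3, g₄] with n ⟨p0, p1⟩ p2 p3 p4 p5
  refine ⟨p0, ?_⟩
  rw [CAQ.U_sub F n iJ' i2] at p1
  rw [CAQ.U_sub F n iJ i0] at p2
  rw [CAQ.U_sub F n iJ iχ] at p3
  rw [CAQ.U_sub F n iJ' iχ] at p4
  rw [CAQ.U_sub F n i2 i0] at p5
  have m3 := mul_le_mul_of_nonneg_left p3 (abs_nonneg μ)
  have m4 := mul_le_mul_of_nonneg_left p4 (abs_nonneg μ)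
  have m5 := mul_le_mul_of_nonneg_left p5 (abs_nonneg μ)
  have m6 := mul_le_mul_of_nonneg_left he (abs_nonneg (F.s / 2 * μ ^ 2))
  rw [← abs_mul] at m3 m4 m5 m6
  rw [abs_le] at p1 p2 m3 m4 m5 m6 ⊢
  have hx : |μ| * (B₂ + B₃ + B₄) = |μ| * B₂ + |μ| * B₃ + |μ| * B₄ := by ring
  rw [hx]
  constructor
  · nlinarith [p1.1, p1.2, p2.1, p2.2, m3.1, m3.2, m4.1, m4.2, m5.1, m5.2, m6.1, m6.2]
  · nlinarith [p1.1, p1.2, p2.1, p2.2, m3.1, m3.2, m4.1, m4.2, m5.1, m5.2, m6.1, m6.2]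

end Vale.Agent.P167.H436.SP
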