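import Vale.Agent.P167.H436.SP.D
import Vale.Agent.P167.H174.ND.Nb
import Vale.Agent.P167.H452.BE.Defs

/-!
# P167, general `q`, (BETA) (1): the compensations of the small loops
-/

namespace Vale.Agent.P167.H436.SP

open Set Metric Filter Topology MeasureTheory Vale.Agent.P167 Vale.Agent.P167.H436.ND
open Vale.Agent.P167.FK
open Vale.Agent.P167.H519 (IsLim)
open Vale.Agent.P167.H562.QM (NbP)

variable {Q θ : ℝ} {P : Measure Cfg}

/-- Two comparable scales. -/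
theorem nb_two (hQ : 1 ≤ Q) (h : RSW Q) (hP : IsLim Q P) {Λ : ℝ} (hΛ : 1 ≤ Λ) :
    ∃ C d0 : ℝ, 0 ≤ C ∧ 0 < d0 ∧ ∀ d d' : ℝ, d0 ≤ d → d0 ≤ d' → d ≤ Λ * d' → d' ≤ Λ * d →
      |NbP P d - NbP P d'| ≤ C := by
  obtain ⟨C, d0, hC, hd0, h⟩ := H174.ND.nb_comp hQ h hP hΛ
  have hPp : IsProbabilityMeasure P := hP.1
  refine ⟨C, d0, hC, hd0, fun d d' h2 h3 h4 h5 => ?_⟩
  rcases le_total d d' with h6 | h6
  · have h7 := h d d' h2 h6 h5
    have h8 := H174.ND.NbP_mono hPp h6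
    rw [abs_le]; constructor <;> linarith
  · have h7 := h d' d h3 h6 h4
    have h8 := H174.ND.NbP_mono hPp h6
    rw [abs_le]; constructor <;> linarith

theorem fl_half {y : ℝ} (hy : 2 ≤ y) : y ≤ 2 * (⌊y⌋ : ℝ) := by
  have := Int.lt_floor_add_one y
  linarith

theorem nb_fl (hQ : 1 ≤ Q) (h : RSW Q) (hP : IsLim Q P) {Λ : ℝ} (hΛ : 1 ≤ Λ) :
    ∃ C : ℝ, 0 ≤ C ∧ ∀ s s' : ℝ, 0 < s → 0 < s' → s ≤ Λ * s' → s' ≤ Λ * s → ∀ᶠ n : ℕ in atTop,
      |NbP P (kp * (⌊s * n / 2⌋ : ℝ)) - NbP P (kp * (⌊s' * n / 2⌋ : ℝ))| ≤ C := by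
  obtain ⟨C, d0, hC, hd0, hh⟩ := nb_two hQ h hP (Λ := 2 * Λ) (by linarith)
  refine ⟨C, hC, fun s s' hs hs' h1 h2 => ?_⟩
  have hk : (0 : ℝ) < kp := by unfold kp; norm_num
  have t : ∀ y : ℝ, 0 < y → ∀ᶠ n : ℕ in atTop, 2 ≤ y * n / 2 ∧ d0 ≤ kp * (⌊y * n / 2⌋ : ℝ) := by
    intro y hy
    have t1 : Tendsto (fun n : ℕ => y * (n : ℝ)) atTop atTop :=
      tendsto_natCast_atTop_atTop.const_mul_atTop hy
    filter_upwards [t1.eventually_ge_atTop 4, t1.eventually_ge_atTop (4 * (d0 / kp))] with n a1 a2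
    refine ⟨by linarith, ?_⟩
    have h3 := fl_half (y := y * n / 2) (by linarith)
    have h4 : d0 / kp ≤ (⌊y * n / 2⌋ : ℝ) := by linarith
    rwa [div_le_iff₀' hk] at h4
  filter_upwards [t s hs, t s' hs'] with n ⟨a1, a2⟩ ⟨b1, b2⟩
  have hn : (0 : ℝ) ≤ n := Nat.cast_nonneg n
  have f1 := fl_half a1
  have f2 := fl_half b1
  have f3 := Int.floor_le (s * n / 2)
  have f4 := Int.floor_le (s' * n / 2)
  have g1 : s * n / 2 ≤ Λ * (s' * n / 2) := by nlinarith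
  have g2 : s' * n / 2 ≤ Λ * (s * n / 2) := by nlinarith
  refine hh _ _ a2 b2 ?_ ?_
  · have : (⌊s * n / 2⌋ : ℝ) ≤ 2 * Λ * (⌊s' * n / 2⌋ : ℝ) := by nlinarith
    nlinarith
  · have : (⌊s' * n / 2⌋ : ℝ) ≤ 2 * Λ * (⌊s * n / 2⌋ : ℝ) := by nlinarith
    nlinarith

/-- **The compensations of the two families of rings.** -/
theorem ex0_cmp (hQ : 1 ≤ Q) (h : RSW Q) (hP : IsLim Q P) (h0 : 0 ≤ θ) {J : ℕ} (hJ : 0 < J)
    {κ η₀ x ρ : ℝ} (hκ : 0 < κ) (hκ1 : κ ≤ 1) (hη₀ : 0 < η₀) (hx : 0 < x) (hx1 : x ≤ 1)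
    (hρ : 0 < ρ) (hρη : ρ ≤ η₀) :
    ∃ B : ℝ, 0 ≤ B ∧ ∀ η : ℝ, 0 < η → ∀ᶠ n : ℕ in atTop, ∀ a : Fin 3 → ℤ,
      a 0 = ⌊η * x * n / 2⌋ → a 1 = ⌊η * n / 2⌋ → a 2 = ⌊ρ * n / 2⌋ →
      |Ex0 θ P (H452.BE.ta θ) a - θ * Nc θ P J κ η₀ n η| ≤ B := by
  have hJ' : (0 : ℝ) < J := by exact_mod_cast hJ
  set Λ : ℝ := (η₀ / ρ) * (1 / κ ^ J) * (1 / x) with hΛ
  have a1 : 1 ≤ η₀ / ρ := by rwa [le_div_iff₀ hρ, one_mul]
  have a2 : 1 ≤ 1 / κ ^ J := by
    rw [le_div_iff₀ (pow_pos hκ J), one_mul]; exact pow_le_one₀ hκ.le hκ1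
  have a3 : 1 ≤ 1 / x := by rwa [le_div_iff₀ hx, one_mul]
  have hΛ1 : 1 ≤ Λ := by
    rw [hΛ]
    exact one_le_mul_of_one_le_of_one_le (one_le_mul_of_one_le_of_one_le a1 a2) a3
  have l1 : η₀ / ρ ≤ Λ := by
    rw [hΛ, mul_assoc]
    exact le_mul_of_one_le_right (by linarith) (one_le_mul_of_one_le_of_one_le a2 a3)
  have l2 : 1 / κ ^ J ≤ Λ := by
    have e : Λ = (1 / κ ^ J) * ((η₀ / ρ) * (1 / x)) := by rw [hΛ]; ring
    rw [e]
    exact le_mul_of_one_le_right (by linarith) (one_le_mul_of_one_le_of_one_le a1 a3)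
  have l3 : 1 / x ≤ Λ := by
    have e : Λ = (1 / x) * ((η₀ / ρ) * (1 / κ ^ J)) := by rw [hΛ]; ring
    rw [e]
    exact le_mul_of_one_le_right (by linarith) (one_le_mul_of_one_le_of_one_le a1 a2)
  obtain ⟨C, hC, hh⟩ := nb_fl hQ h hP hΛ1
  refine ⟨|Real.tan θ| * (3 * θ * C), by positivity, fun η hη => ?_⟩
  have hr0 := hh (η * x) η (by positivity) hη (by nlinarith) (by
    have : η ≤ 1 / x * (η * x) := by field_simp; exact le_rfl
    exact this.trans (mul_le_mul_of_nonneg_right l3 (by positivity)))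
  have hsc : ∀ i : Fin (2 * J), ∀ᶠ n : ℕ in atTop,
      |NbP P (kp * (asc J κ η η₀ n i : ℝ)) -
        (if (i : ℕ) < J then NbP P (kp * (⌊η * n / 2⌋ : ℝ)) else NbP P (kp * (⌊ρ * n / 2⌋ : ℝ)))| ≤
        C := by
    intro i
    have hpk : ∀ m : ℕ, m ≤ J → κ ^ J ≤ κ ^ m := fun m hm => pow_le_pow_of_le_one hκ.le hκ1 hm
    have hlam : ∀ (y : ℝ) (m : ℕ), 0 < y → m ≤ J → y ≤ Λ * (y * κ ^ m) := by
      intro y m hy hm
      have h3 : 1 ≤ Λ * κ ^ m := by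
        have : 1 = 1 / κ ^ J * κ ^ J := by field_simp
        calc (1 : ℝ) = 1 / κ ^ J * κ ^ J := this
          _ ≤ Λ * κ ^ m := mul_le_mul l2 (hpk m hm) (by positivity) (by linarith)
      nlinarith
    by_cases hi : (i : ℕ) < J
    · simp only [if_pos hi]
      unfold asc esc
      simp only [if_pos hi]
      refine hh _ _ (by positivity) hη ?_ (hlam η _ hη (by omega))
      have : η * κ ^ (J - 1 - (i : ℕ)) ≤ η := mul_le_of_le_one_right hη.le (pow_le_one₀ hκ.le hκ1)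
      nlinarith
    · simp only [if_neg hi]
      unfold asc esc
      simp only [if_neg hi]
      refine hh _ _ (by positivity) hρ ?_ ?_
      · have h4 : η₀ * κ ^ (2 * J - 1 - (i : ℕ)) ≤ η₀ :=
          mul_le_of_le_one_right hη₀.le (pow_le_one₀ hκ.le hκ1)
        have h5 : η₀ = η₀ / ρ * ρ := by field_simp
        have h6 := mul_le_mul_of_nonneg_right l1 hρ.le
        linarith
      · have := hlam η₀ (2 * J - 1 - (i : ℕ)) hη₀ (by omega)
        linarith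
  have hall : ∀ᶠ n : ℕ in atTop, ∀ i : Fin (2 * J),
      |NbP P (kp * (asc J κ η η₀ n i : ℝ)) -
        (if (i : ℕ) < J then NbP P (kp * (⌊η * n / 2⌋ : ℝ)) else NbP P (kp * (⌊ρ * n / 2⌋ : ℝ)))| ≤
        C := eventually_all.2 hsc
  filter_upwards [hr0, hall] with n h1 h2 a ha0 ha1 ha2
  set N1 := NbP P (kp * (⌊η * n / 2⌋ : ℝ)) with hN1
  set N2 := NbP P (kp * (⌊ρ * n / 2⌋ : ℝ)) with hN2
  set N0 := NbP P (kp * (⌊η * x * n / 2⌋ : ℝ)) with hN0
  rw [show θ * Nc θ P J κ η₀ n η = Ex0 θ P (tau2 J θ) (asc J κ η η₀ n) from (Ex0_mul θ P θ _).symm]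
  have e1 : Ex0 θ P (H452.BE.ta θ) a = Real.tan θ * (θ / 2 * N0 + θ / 2 * N1 - θ * N2) := by
    have t0 : H452.BE.ta θ 0 = θ / 2 := rfl
    have t1 : H452.BE.ta θ 1 = θ / 2 := rfl
    have t2 : H452.BE.ta θ 2 = -θ := rfl
    unfold Ex0
    rw [Fin.sum_univ_three, ha0, ha1, ha2, t0, t1, t2]
    ring
  have e2 : ∑ i : Fin (2 * J), tau2 J θ i * (if (i : ℕ) < J then N1 else N2) = θ * N1 - θ * N2 := by
    have e3 : ∑ i : Fin (2 * J), tau2 J θ i * (if (i : ℕ) < J then N1 else N2) =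
        ∑ i ∈ Finset.range (2 * J), (if i < J then θ / J else -(θ / J)) *
          (if i < J then N1 else N2) := by
      rw [Finset.sum_range]
      rfl
    rw [e3, two_mul J, Finset.sum_range_add]
    have e4 : ∑ i ∈ Finset.range J, (if i < J then θ / J else -(θ / J)) *
          (if i < J then N1 else N2) = ∑ i ∈ Finset.range J, θ / J * N1 :=
      Finset.sum_congr rfl fun i hi => by
        rw [Finset.mem_range] at hi
        rw [if_pos hi, if_pos hi]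
    have e5 : ∑ i ∈ Finset.range J, (if J + i < J then θ / J else -(θ / J)) *
          (if J + i < J then N1 else N2) = ∑ i ∈ Finset.range J, -(θ / J) * N2 :=
      Finset.sum_congr rfl fun i hi => by
        rw [if_neg (by omega), if_neg (by omega)]
    rw [e4, e5, Finset.sum_const, Finset.sum_const, Finset.card_range, nsmul_eq_mul, nsmul_eq_mul]
    field_simp
    ring
  have e6 : Ex0 θ P (H452.BE.ta θ) a - Ex0 θ P (tau2 J θ) (asc J κ η η₀ n) =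
      Real.tan θ * (θ / 2 * (N0 - N1) - ∑ i : Fin (2 * J), tau2 J θ i *
        (NbP P (kp * (asc J κ η η₀ n i : ℝ)) - (if (i : ℕ) < J then N1 else N2))) := by
    rw [e1]
    simp only [mul_sub (tau2 J θ _), Finset.sum_sub_distrib]
    rw [e2]
    unfold Ex0
    ring
  rw [e6, abs_mul]
  refine mul_le_mul_of_nonneg_left ?_ (abs_nonneg _)
  have s1 : |θ / 2 * (N0 - N1)| ≤ θ * C := by
    rw [abs_mul, abs_of_nonneg (by positivity)]
    nlinarith [abs_nonneg (N0 - N1)]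
  have s2 : |∑ i : Fin (2 * J), tau2 J θ i *
        (NbP P (kp * (asc J κ η η₀ n i : ℝ)) - (if (i : ℕ) < J then N1 else N2))| ≤ 2 * θ * C := by
    refine (Finset.abs_sum_le_sum_abs _ _).trans ?_
    have s3 : ∀ i ∈ (Finset.univ : Finset (Fin (2 * J))), |tau2 J θ i *
        (NbP P (kp * (asc J κ η η₀ n i : ℝ)) - (if (i : ℕ) < J then N1 else N2))| ≤ θ / J * C := by
      intro i _
      rw [abs_mul]
      have s4 : |tau2 J θ i| = θ / J := by
        unfold tau2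
        split_ifs
        · exact abs_of_nonneg (by positivity)
        · rw [abs_neg]; exact abs_of_nonneg (by positivity)
      rw [s4]
      exact mul_le_mul_of_nonneg_left (h2 i) (by positivity)
    refine (Finset.sum_le_sum s3).trans ?_
    rw [Finset.sum_const, Finset.card_univ, Fintype.card_fin, nsmul_eq_mul]
    push_cast
    field_simp
    exact le_rfl
  calc _ ≤ |θ / 2 * (N0 - N1)| + |∑ i : Fin (2 * J), tau2 J θ i *
        (NbP P (kp * (asc J κ η η₀ n i : ℝ)) - (if (i : ℕ) < J then N1 else N2))| := abs_sub _ _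
    _ ≤ θ * C + 2 * θ * C := add_le_add s1 s2
    _ = 3 * θ * C := by ring

end Vale.Agent.P167.H436.SP
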