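import Vale.Agent.P167.H436.SP.E
import Vale.Agent.P167.H436.ND.MRf

/-!
# P167, general `q`, (BETA) (1): the lattice half
-/

namespace Vale.Agent.P167.H436.SP

open Set Metric Filter Topology MeasureTheory Vale.Agent.P167 Vale.Agent.P167.H436.ND
open Vale.Agent.P167.FK
open Vale.Agent.P153.R2.R1
open Vale.Agent.P167.BR (sites Flt hbox)
open Vale.Agent.P167.BVP (Flat Test)
open Vale.Agent.P167.CA (Dat cms fs)
open Vale.Agent.P167.H411.B7 (Shp scb)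
open Vale.Agent.P167.H411.Q (fb VN BdA hQ fb_bp)
open Vale.Agent.P167.H135 (Mov)
open Vale.Agent.P167.H519 (IsLim)
open Vale.Agent.P167.H640.ND (nor Mq poly_mov enc_mov dob_mov Ex_XG_mov)
open Vale.Agent.P167.H718 (Dob Chordless etaW mem_opW)
open Vale.Agent.P167.E6 (IsPolygon Encloses)
open Vale.Agent.P167.QB (gB XG)
open Vale.Agent.P167.H542.Q (BD)
open Vale.Agent.P167.H452.BE (ta XE R3)

theorem etaW_n {n : ℕ} (D : Finset (ℤ × ℤ)) (q : ZMod n → ℤ × ℤ) : etaW D q n = eta0 := by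
  funext v
  unfold etaW eta0
  rw [decide_eq_false_iff_not, mem_opW]
  rintro ⟨⟨j, h1, h2, -⟩, -⟩
  omega

/-- The expectation in the moved domain, free outside. -/
theorem ex_mov {θ : ℝ} (hQ : 0 < 2 * Real.cos θ) (M : Mov) {n m : ℕ} {q : ZMod n → ℤ × ℤ}
    {D : Finset (ℤ × ℤ)} {η : Cfg} (hc : Chordless q) (hq : IsPolygon q)
    (hq' : IsPolygon (Mq M q)) (hD' : Encloses (Mq M q) (M.S D)) (hη : Dob η D q n)
    (τ : Fin m → ℝ) (f : Fin m → ℤ × ℤ → ℝ) :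
    Ex (2 * Real.cos θ) (M.S D) eta0 (XG θ (Mq M q) (M.S D) n (Ft τ (fun i => M.F (f i)) 0)) =
      Ex (2 * Real.cos θ) D η (XG θ q D n (Ft τ f 0)) := by
  have h1 := (free_conf (chordless_mov M hc) hq' hD' (0, 0) 0).1
  rw [etaW_n] at h1
  rw [CAQ.J.ex_dob hq' hD' le_rfl h1 (dob_mov M hη) hQ (loc_XG _ _ _ _ _), ← Ft_mov,
    Ex_XG_mov M _ θ hq]

/-- The bumps of the three rings. -/
noncomputable def f3 (χ : ℂ → ℝ) (ν c : ℂ) (η x ρ : ℝ) (n : ℕ) : Fin 3 → ℤ × ℤ → ℝ :=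
  ![cms (fb χ ν c (η * x)) (1 / n), cms (fb χ ν c η) (1 / n), cms (fb χ ν c ρ) (1 / n)]

theorem cms_f3 (S : Dat) {c ν : ℂ} {r : ℝ} (hF : Flat S.P c ν r) {χ : ℂ → ℝ} (hχ : Sh0 χ) {η x ρ θ : ℝ}
    (hη : 0 < η) (hηr : η < r) (hx : 0 < x) (hx1 : x ≤ 1) (hρ : 0 < ρ) (hρr : ρ < r) (n : ℕ) :
    cms (fun w => θ * (fb (ms 2 x χ) ν c η w - fb χ ν c ρ w)) (1 / n) =
      Ft (ta θ) (f3 χ ν c η x ρ n) 0 := by
  have i1 := int_fb hχ.shp hF hη hηr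
  have i0 := int_fb hχ.shp hF (η := η * x) (by positivity)
    ((mul_le_of_le_one_right hη.le hx1).trans_lt hηr)
  have i2 := int_fb hχ.shp hF hρ hρr
  have e : (fun w => fb (ms 2 x χ) ν c η w) =
      fun w => (1 / 2 : ℝ) * fb χ ν c η w + (1 / 2 : ℝ) * fb χ ν c (η * x) w := by
    funext w
    rw [fb_ms, Finset.sum_range_succ, Finset.sum_range_one, pow_zero, mul_one, pow_one]
    norm_num
  have i3 : Integrable (fun w => fb (ms 2 x χ) ν c η w) := by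
    rw [e]
    exact (i1.const_mul _).add (i0.const_mul _)
  funext z
  rw [CA.cms_smul, CA.cms_sub i3 i2]
  rw [show cms (fun z => fb (ms 2 x χ) ν c η z) (1 / n) z =
    cms (fun w => (1 / 2 : ℝ) * fb χ ν c η w + (1 / 2 : ℝ) * fb χ ν c (η * x) w) (1 / n) z by
      rw [← e]]
  rw [CA.cms_add (i1.const_mul _) (i0.const_mul _), CA.cms_smul, CA.cms_smul]
  unfold Ft
  rw [Pi.zero_apply, add_zero, Fin.sum_univ_three]
  have t0 : ta θ 0 = θ / 2 := rfl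
  have t1 : ta θ 1 = θ / 2 := rfl
  have t2 : ta θ 2 = -θ := rfl
  rw [t0, t1, t2]
  unfold f3
  simp only [Matrix.cons_val_zero, Matrix.cons_val_one, Matrix.cons_val_two, Matrix.head_cons,
    Matrix.tail_cons]
  ring

/-- **(BETA) (1)**: the power law at a flat free point, in windows of scales. -/
def S_powL (θ : ℝ) (P : Measure Cfg) : Prop :=
  ∀ M : ℤ, 2 ≤ M → ∃ K1 : ℤ, ∀ K : ℤ, K1 ≤ K → ∀ L : ℤ, ∃ (lam c C : ℝ) (k1 : ℕ),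
    0 < lam ∧ 0 < c ∧ 0 < C ∧ ∀ k : ℕ, k1 ≤ k → ∃ r1 : ℤ, ∀ r : ℤ, r1 ≤ r →
    ∃ (n : ℕ) (q : ZMod n → ℤ × ℤ) (D : Finset (ℤ × ℤ)) (l : ℕ) (R : ℤ) (a : Fin 3 → ℤ)
      (f : Fin 3 → ℤ × ℤ → ℝ), Win q D l R ∧ R3 1 K R a ∧ a 1 = r ∧ a 2 = M ^ k * r ∧
      a 1 ≤ 2 * K * a 0 ∧ L * a 2 ≤ R ∧ (∀ i, Bp 1000 (q l) (a i) (f i)) ∧
      c * lam ^ k ≤ Ex (2 * Real.cos θ) D eta0 (XE θ q D f) * Real.exp (Ex0 θ P (ta θ) a) ∧
      Ex (2 * Real.cos θ) D eta0 (XE θ q D f) * Real.exp (Ex0 θ P (ta θ) a) ≤ C * lam ^ k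

/-- The data of the domain from `CORE`. -/
theorem exists_lv {S : Dat} {θ : ℝ} {P : Measure Cfg} (h0 : 0 < θ) (h1 : θ ≤ Real.pi / 3)
    (hβ : Real.cos (θ / 2 + gB θ) = Real.sin θ) (hf : S_fre θ P) {X : BD S θ (gB θ)} {c : ℂ}
    {i : Fin 4} {r : ℝ} {l : ℕ → ℕ} (hX : Jn X c i r l) (hk : ∀ᶠ n in X.L, X.k n = X.N n)
    (hr : 0 < r) {χ : ℂ → ℝ} (hχ : Sh1 χ) :
    ∃ (J : ℕ) (K : ℤ) (h₀ : ℂ → ℝ), 0 < J ∧ 4 ≤ K ∧
      Lv (X.famB h0 h1 hβ) θ (nor i) c 1000 J (1 / ((K : ℝ) + 1)) h₀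
        (Nc θ P J (1 / ((K : ℝ) + 1)) (r / (16 * K))) := by
  obtain ⟨J, hJ, g⟩ := hf
  obtain ⟨K, hK, g'⟩ := g J le_rfl 1000 (by norm_num)
  obtain ⟨c', C', a', hc', hFre⟩ := g' K le_rfl
  have hK' : (4 : ℝ) ≤ K := by exact_mod_cast hK
  have hη₀r : r / (16 * (K : ℝ)) < r := by
    rw [div_lt_iff₀ (by positivity)]
    nlinarith
  have hS := ms_shp hχ.sh0 hJ (κ := 1 / ((K : ℝ) + 1)) (by positivity)
    (by rw [div_le_one (by positivity)]; linarith)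
  have hb := fb_bp hS hX.flat (η := r / (16 * (K : ℝ))) (by positivity) hη₀r
  refine ⟨J, K, _, hJ, hK, hJ, by positivity, by rw [div_le_one (by positivity)]; linarith,
    hb.test, hb.mass, fun Y hY hYM => ?_⟩
  exact bdA_freX (Z := fun _ => χ) h0 h1 hβ hK hc' hFre hX hk hY hYM (fun _ => hχ.sh0)
    (fun _ => hχ.bd) hr rfl

theorem fl_n {ρ : ℝ} (hρ : 0 < ρ) (hρ1 : ρ ≤ 1 / 4) {m : ℤ} {r : ℤ} (hr : 0 ≤ r)
    (hm1 : 1 ≤ m) :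
    ∃ n : ℕ, 4 ∣ n ∧ r ≤ n ∧ ⌊ρ * n / 2⌋ = m * r ∧ ⌊ρ / m * n / 2⌋ = r := by
  have hm' : (1 : ℝ) ≤ m := by exact_mod_cast hm1
  have hr' : (0 : ℝ) ≤ r := by exact_mod_cast hr
  set y : ℝ := 2 * (m * r) / ρ / 4 with hy
  have hy0 : 0 ≤ y := by positivity
  have h1 := Nat.le_ceil y
  have h2 := Nat.ceil_lt_add_one hy0
  have e : ρ * (4 * y) = 2 * (m * r) := by rw [hy]; field_simp
  have g1 : 2 * ((m : ℝ) * r) ≤ ρ * (4 * ⌈y⌉₊) := by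
    rw [← e]
    exact mul_le_mul_of_nonneg_left (by linarith) hρ.le
  have g2 : ρ * (4 * (⌈y⌉₊ : ℝ)) < 2 * ((m : ℝ) * r) + 1 + 1 := by
    have h3 : ρ * (4 * (⌈y⌉₊ : ℝ)) < ρ * (4 * (y + 1)) :=
      mul_lt_mul_of_pos_left (by linarith) hρ
    have h4 : ρ * (4 * (y + 1)) = 2 * (m * r) + 4 * ρ := by rw [← e]; ring
    linarith
  refine ⟨4 * ⌈y⌉₊, dvd_mul_right _ _, ?_, ?_, ?_⟩
  · have h1 : (r : ℝ) ≤ 4 * y := by
      have h5 : 4 * y = 2 * (m * r) / ρ := by rw [hy]; ring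
      rw [h5, le_div_iff₀ hρ]
      nlinarith [mul_nonneg (sub_nonneg.2 hm') hr', mul_nonneg (by linarith : 0 ≤ 1 - ρ) hr']
    have h2 : (r : ℝ) ≤ ((4 * ⌈y⌉₊ : ℕ) : ℝ) := by push_cast; linarith
    exact_mod_cast h2
  · rw [Int.floor_eq_iff]
    push_cast
    constructor <;> linarith
  · have e2 : ρ / m * ((4 * ⌈y⌉₊ : ℕ) : ℝ) / 2 = (ρ * (4 * ⌈y⌉₊) / 2) / m := by push_cast; ring
    have hm0 : (0 : ℝ) < m := by linarith
    rw [Int.floor_eq_iff, e2, le_div_iff₀ hm0, div_lt_iff₀ hm0]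
    constructor
    · linarith
    · nlinarith

end Vale.Agent.P167.H436.SP
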